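import Vale.Agent.P144DR.Defs
import Vale.Agent.P144DD.Top

/-!
The statements of the blocks for the contact terms.
-/

namespace Vale.Agent.P144DR

open Filter Topology MeasureTheory Vale.Agent.P144 Vale.Agent.P144Z Vale.Agent.P144DD Finset

/-- The points of a correlation of energies only. -/
def ens {m : ℕ} (y : Fin m → ℂ) (j : Fin m → Fin 2) : Pts := ⟨0, m, ![], y, j⟩

/-- Universality with a rate. -/
def UDR (D : Set ℂ) (E₀ E : Fam) (Zσ Zε : ℝ) : Prop :=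
  ∀ n m : ℕ, ∀ s > (0 : ℝ), ∃ θ > (0 : ℝ), ∀ᶠ a in 𝓝[>] (0 : ℝ), ∀ p : Pts,
    p.n = n → p.m = m → Ins D s p → Sep (a ^ θ) p →
      |corr a (E a) p - Zσ ^ p.n * Zε ^ p.m * corr a (E₀ a) p| ≤ a ^ θ

/-- Two distant pairs of energies of the same size `s` are almost independent. -/
def CVM (D : Set ℂ) (E : Fam) : Prop :=
  ∀ θ > (0 : ℝ), ∀ k : ℕ, ∀ s₀ > (0 : ℝ), ∃ κ > (0 : ℝ), ∀ᶠ a in 𝓝[>] (0 : ℝ), ∀ s : ℝ, s ≤ a ^ θ →
    ∀ (y : Fin 4 → ℂ) (j : Fin 4 → Fin 2), Ins D s₀ (ens y j) → ‖y 0 - y 1‖ ≤ s → ‖y 2 - y 3‖ ≤ s →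
      s ≤ k * (‖y 0 - y 1‖ + a) → s ≤ k * (‖y 2 - y 3‖ + a) → a ^ (θ / 2) ≤ ‖y 0 - y 2‖ →
        |corr a (E a) (ens y j) - corr a (E a) (ens ![y 0, y 1] ![j 0, j 1]) *
          corr a (E a) (ens ![y 2, y 3] ![j 2, j 3])| * s ^ 4 ≤ a ^ κ

/-- The correlation of two close energies is local. -/
def LOC (D : Set ℂ) (E E' : Fam) : Prop :=
  ∀ θ > (0 : ℝ), ∀ s₀ > (0 : ℝ), ∃ κ > (0 : ℝ), ∀ᶠ a in 𝓝[>] (0 : ℝ),
    ∀ (y : Fin 2 → ℂ) (j : Fin 2 → Fin 2), Ins D s₀ (ens y j) → ‖y 0 - y 1‖ ≤ a ^ θ →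
      |corr a (E a) (ens y j) - corr a (E' a) (ens y j)| * (‖y 0 - y 1‖ + a) ^ 2 ≤ a ^ κ

/-- The correlation of the spins and of the energies in `T`, with the two-point functions of `E'`
subtracted. -/
noncomputable def wk (a : ℝ) (E E' : (Config → ℝ) → ℝ) (p : Pts) (T : Finset (Fin p.m)) : ℝ :=
  Ex (fun e => corr a E' (ens ![p.y e.1, p.y e.2] ![p.j e.1, p.j e.2]))
    (fun T => corr a E (sub p T)) T

/-- The majorant after the subtraction: `ρ` is at most the distance from the spins to the other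
points; `t k` and `u k` are at most the distances from the energy `k` to the nearest and to the
second nearest energy. -/
def MajW (D : Set ℂ) (E₀ E' : Fam) : Prop :=
  ∀ n m : ℕ, ∀ s > (0 : ℝ), ∃ (C : ℝ) (N : ℕ), ∀ᶠ a in 𝓝[>] (0 : ℝ), ∀ p : Pts, p.n = n → p.m = m →
    Ins D s p → ∀ (T : Finset (Fin p.m)) (ρ : ℝ) (t u : Fin p.m → ℝ), 0 < ρ → ρ ≤ 1 →
      (∀ i i', i ≠ i' → ρ ≤ ‖p.x i - p.x i'‖) → (∀ i, ∀ k ∈ T, ρ ≤ ‖p.x i - p.y k‖) →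
      (∀ k, 0 < t k ∧ t k ≤ u k ∧ u k ≤ 1) → (∀ k ∈ T, ∀ l ∈ T, k ≠ l → t k ≤ ‖p.y k - p.y l‖) →
      (∀ k ∈ T, ∀ l ∈ T, ∀ l' ∈ T, k ≠ l → k ≠ l' → l ≠ l' →
        u k ≤ max ‖p.y k - p.y l‖ ‖p.y k - p.y l'‖) →
        |wk a (E₀ a) (E' a) p T| * ρ ^ N * ∏ k ∈ T, √(t k * u k) ≤ C

/-- Translation-invariant probability measures. -/
def Inv (μ : Measure Config) : Prop :=
  IsProbabilityMeasure μ ∧ ∀ t : Site, μ.map (fun σ x => σ (x + t)) = μ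

/-- The lattice two-point function of the energy. -/
noncomputable def g2 (μ : Measure Config) (j j' : Fin 2) (v : Site) : ℝ :=
  corr 1 (fun F => ∫ σ, F σ ∂μ) (ens ![0, ⟨v.1, v.2⟩] ![j, j'])

/-- The contact terms of the reference state. -/
noncomputable def k0 (μ : Measure Config) (a : ℝ) (j j' : Fin 2) : ℝ :=
  ∑ v ∈ P144F.bx ⌊a⁻¹⌋₊, g2 μ j j' v

/-- Block A2: the rate in the domains. -/
def BlkA2 : Prop :=
  ∃ ε₀ > (0 : ℝ), ∀ ε > (0 : ℝ), ε ≤ ε₀ → Ev fun L q => ∀ J lam β : ℝ, 0 < J →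
    UL.Rel J lam β q → ∀ D b, DomG L ε D → StdBC b →
      UDR D (crit J D b) (inDom J lam q.V β D b) (Real.exp (AN.sg L q)) (AN.ze L q)

/-- Block P2: the rate in the plane. -/
def BlkP2 : Prop :=
  Ev fun L q => ∀ J lam β : ℝ, 0 < J → U4.Rel J lam β q → ∀ μ, IsTorusState J lam q.V β μ →
    ∀ E₀, PlaneFam J 0 (fun _ => 0) (Kc / J) E₀ →
      UDR Set.univ E₀ (famOf μ) (Real.exp (AN.sg L q)) (AN.ze L q)

/-- Block V: pairs of energies for the perturbed model. -/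
def BlkV : Prop :=
  ∃ ε₀ > (0 : ℝ), ∀ ε > (0 : ℝ), ε ≤ ε₀ → Ev fun L q => ∀ J lam β : ℝ, 0 < J →
    U4.Rel J lam β q → ∀ μ, IsTorusState J lam q.V β μ → CVM Set.univ (famOf μ) ∧
      ∀ D b, DomG L ε D → StdBC b →
        CVM D (inDom J lam q.V β D b) ∧ LOC D (inDom J lam q.V β D b) (famOf μ)

/-- Block V0: pairs of energies for the nearest-neighbour model. -/
def BlkV0 : Prop :=
  ∀ J > (0 : ℝ), ∀ μ, IsPlaneState J 0 (fun _ => 0) (Kc / J) μ →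
    (∀ E₀, PlaneFam J 0 (fun _ => 0) (Kc / J) E₀ → ∀ a > 0, ∀ p,
      corr a (E₀ a) p = corr a (famOf μ a) p) ∧
    CVM Set.univ (famOf μ) ∧ ∀ D b, IsOpen D → Bornology.IsBounded D → StdBC b →
      CVM D (crit J D b) ∧ LOC D (crit J D b) (famOf μ)

/-- Block W: the majorant after the subtraction. -/
def BlkW : Prop :=
  ∃ ε₀ > (0 : ℝ), ∀ ε > (0 : ℝ), ε ≤ ε₀ → ∃ L₀ : ℕ, ∀ L ≥ L₀, ∀ J > (0 : ℝ), ∀ μ,
    IsPlaneState J 0 (fun _ => 0) (Kc / J) μ → MajW Set.univ (famOf μ) (famOf μ) ∧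
      ∀ D b, DomG L ε D → StdBC b → MajW D (crit J D b) (famOf μ)

/-- Block H2: from the pointwise bounds to the difference of the distributions. -/
def BlkH2 : Prop :=
  ∀ (μ₀ μ : Measure Config) (Zσ Zε : ℝ), Inv μ₀ → Inv μ → Maj Set.univ (famOf μ₀) →
    UDR Set.univ (famOf μ₀) (famOf μ) Zσ Zε → ∃ c : Fin 2 → Fin 2 → ℝ,
      ∀ (D : Set ℂ) (E₀ E : Fam), IsOpen D → Prob E₀ → Prob E → UDR D E₀ E Zσ Zε → ZBM D E →
        Maj D E₀ → CVM D E₀ → CVM D E → LOC D E₀ (famOf μ₀) → LOC D E (famOf μ) →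
          RenDiff D E₀ E (k0 μ₀) (fun a j j' => Zε ^ 2 * k0 μ₀ a j j' + c j j') Zσ Zε

/-- Block I2: the limit for the nearest-neighbour model. -/
def BlkI2 : Prop :=
  ∀ (μ₀ : Measure Config) (C₀ : Pts → ℝ), Inv μ₀ → Maj Set.univ (famOf μ₀) →
    (∀ p, Good Set.univ p → Lim (famOf μ₀) p (C₀ p) ∧ ∀ j, C₀ { p with j := j } = C₀ p) →
    ∀ (D : Set ℂ) (E₀ : Fam) (C : Pts → ℝ), IsOpen D → Prob E₀ → Maj D E₀ →
      MajW D E₀ (famOf μ₀) → (∀ p : Pts, p.n + p.m = 0 → C p = 1) →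
      (∀ p, Good D p → Lim E₀ p (C p) ∧ ∀ j, C { p with j := j } = C p) →
        ∃ T, RenLim D E₀ (k0 μ₀) 1 1 T ∧ Extends D C T

/-- The final statement with the contact terms. -/
def Final : Prop :=
  ∀ J > 0, ∃ (C : Pts → ℝ) (CD : Set ℂ → Option (ℝ → Config) → Pts → ℝ)
    (ν : ∀ r : ℕ, (Fin r → ℂ → ℝ) → Measure (Fin r → ℝ))
    (νD : Set ℂ → Option (ℝ → Config) → ∀ r : ℕ, (Fin r → ℂ → ℝ) → Measure (Fin r → ℝ))
    (κ₀ : ℝ → Fin 2 → Fin 2 → ℝ) (T : ∀ n m : ℕ, (Pos n m → ℝ) → ℝ)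
    (TD : Set ℂ → Option (ℝ → Config) → ∀ n m : ℕ, (Pos n m → ℝ) → ℝ),
    (∃ E₀, PlaneFam J 0 (fun _ => 0) (Kc / J) E₀) ∧
    (∀ p, Good Set.univ p → (∀ E₀, PlaneFam J 0 (fun _ => 0) (Kc / J) E₀ → Lim E₀ p (C p)) ∧
      (∀ j, C { p with j := j } = C p) ∧ (p.m = 0 → Even p.n → 0 < C p)) ∧
    P144F.RP C ∧ P144F.IsLaw Set.univ C ν ∧ Extends Set.univ C T ∧
    (∀ E₀, PlaneFam J 0 (fun _ => 0) (Kc / J) E₀ → P144F.FieldLim Set.univ E₀ 1 ν ∧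
      DistLim Set.univ E₀ 1 1 C ∧ RenLim Set.univ E₀ κ₀ 1 1 T) ∧
    (∀ D b, P144Y.Nice D b → (∀ p, Good D p → Lim (crit J D b) p (CD D b p) ∧
      (∀ j, CD D b { p with j := j } = CD D b p) ∧
      (p.m = 0 → (b = none ∧ Even p.n ∨ b = some fun _ _ => true) → 0 < CD D b p)) ∧
      P144F.IsLaw D (CD D b) (νD D b) ∧ P144F.FieldLim D (crit J D b) 1 (νD D b)) ∧
    ∀ K < 1, ∀ V, IsPotential V → ∃ lam₀ > 0,
      ∃ β Zσ Zε : ℝ → ℝ, AnalyticOnNhd ℝ β (Set.Ioo (-lam₀) lam₀) ∧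
      AnalyticOnNhd ℝ Zσ (Set.Ioo (-lam₀) lam₀) ∧ AnalyticOnNhd ℝ Zε (Set.Ioo (-lam₀) lam₀) ∧
      β 0 = Kc / J ∧ Zσ 0 = 1 ∧ Zε 0 = 1 ∧ ∀ lam : ℝ, |lam| < lam₀ →
        0 < β lam ∧ 0 < Zσ lam ∧ 0 < Zε lam ∧ ∃ c : Fin 2 → Fin 2 → ℝ,
        (∃ μ, IsPlaneState J lam V (β lam) μ ∧ IsTorusState J lam V (β lam) μ ∧
          (∀ p, Good Set.univ p → Lim (famOf μ) p (Zσ lam ^ p.n * Zε lam ^ p.m * C p)) ∧
          (∀ E₀, PlaneFam J 0 (fun _ => 0) (Kc / J) E₀ →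
            LocDiff Set.univ E₀ (famOf μ) (Zσ lam) (Zε lam)) ∧
          P144F.FieldLim Set.univ (famOf μ) (Zσ lam) ν ∧
          DistLim Set.univ (famOf μ) (Zσ lam) (Zε lam) C ∧
          RenLim Set.univ (famOf μ) (fun a j j' => Zε lam ^ 2 * κ₀ a j j' + c j j')
            (Zσ lam) (Zε lam) T) ∧
        ∀ D b, (IsC1 D ∨ IsPC1 D ∨ IsPolygon D ∨
            (IsOpen D ∧ Bornology.IsBounded D ∧ Convex ℝ D) ∨ IsLip K D) → StdBC b →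
          LocDiff D (crit J D b) (inDom J lam V (β lam) D b) (Zσ lam) (Zε lam) ∧
            Identity D (crit J D b) (inDom J lam V (β lam) D b) (Zσ lam) (Zε lam) ∧
            DistDiff D (crit J D b) (inDom J lam V (β lam) D b) (Zσ lam) (Zε lam) ∧
            RenDiff D (crit J D b) (inDom J lam V (β lam) D b) κ₀
              (fun a j j' => Zε lam ^ 2 * κ₀ a j j' + c j j') (Zσ lam) (Zε lam) ∧
            (P144Y.Nice D b → (∀ p, Good D p →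
              Lim (inDom J lam V (β lam) D b) p (Zσ lam ^ p.n * Zε lam ^ p.m * CD D b p)) ∧
              P144F.FieldLim D (inDom J lam V (β lam) D b) (Zσ lam) (νD D b) ∧
              DistLim D (inDom J lam V (β lam) D b) (Zσ lam) (Zε lam) (CD D b) ∧
              Extends D (CD D b) (TD D b) ∧
              RenLim D (inDom J lam V (β lam) D b)
                (fun a j j' => Zε lam ^ 2 * κ₀ a j j' + c j j') (Zσ lam) (Zε lam) (TD D b))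

/-- Block T2: the assembly. -/
def BlkT2 : Prop :=
  BlkA2 → BlkP2 → BlkB → BlkC → BlkH → BlkI → BlkZ → BlkV → BlkV0 → BlkW → BlkH2 → BlkI2 → Final

end Vale.Agent.P144DR
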