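import Vale.Agent.P144DR.Defs
import Mathlib.Analysis.SpecialFunctions.Pow.Continuity

/-!
The subtraction of pairs; quantities that are small, or bounded, up to powers of the mesh.
-/

namespace Vale.Agent.P144DR

open Filter Topology Finset

section

variable {m : ℕ} {T : Finset (Fin m)} {P : Finset (Fin m × Fin m)}

/-- The points of the pairs. -/
def su (P : Finset (Fin m × Fin m)) : Finset (Fin m) := P.biUnion fun e => {e.1, e.2}

theorem mem_su {k : Fin m} : k ∈ su P ↔ ∃ e ∈ P, k = e.1 ∨ k = e.2 := by simp [su]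

theorem mem_mat : P ∈ mat T ↔ (∀ e ∈ P, (e.1 ∈ T ∧ e.2 ∈ T) ∧ e.1 < e.2) ∧
    ∀ e ∈ P, ∀ e' ∈ P, e ≠ e' → Disjoint ({e.1, e.2} : Finset (Fin m)) {e'.1, e'.2} := by
  simp only [mat, mem_filter, mem_powerset, subset_iff, mem_product]

theorem Ex_eq (w : Fin m × Fin m → ℝ) (c : Finset (Fin m) → ℝ) (T : Finset (Fin m)) :
    Ex w c T = ∑ P ∈ mat T, (∏ e ∈ P, -w e) * c (T \ su P) := rfl

theorem empty_mat (T : Finset (Fin m)) : ∅ ∈ mat T := by simp [mem_mat]

theorem Ex_zero (c : Finset (Fin m) → ℝ) (T : Finset (Fin m)) : Ex 0 c T = c T := by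
  rw [Ex_eq, sum_eq_single_of_mem ∅ (empty_mat T) fun P _ hP => ?_]
  · simp [su]
  · obtain ⟨e, he⟩ := nonempty_iff_ne_empty.2 hP
    rw [prod_eq_zero he (by simp), zero_mul]

theorem card_su (h : P ∈ mat T) : (T \ su P).card + 2 * P.card = T.card := by
  rw [mem_mat] at h
  have h1 : su P ⊆ T := fun k hk => by
    obtain ⟨e, he, rfl | rfl⟩ := mem_su.1 hk
    exacts [(h.1 e he).1.1, (h.1 e he).1.2]
  rw [← card_sdiff_add_card_eq_card h1, su, card_biUnion fun e he e' he' => h.2 e he e' he',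
    sum_congr rfl fun e he => card_pair (h.1 e he).2.ne, sum_const, smul_eq_mul, mul_comm]

theorem Ex_add (u v : Fin m × Fin m → ℝ) (c : Finset (Fin m) → ℝ) (T : Finset (Fin m)) :
    Ex (u + v) c T = Ex u (Ex v c) T := by
  simp only [Ex_eq, Pi.add_apply, neg_add, prod_add, sum_mul, mul_sum, sum_sigma']
  refine sum_nbij' (fun p => ⟨p.2, p.1 \ p.2⟩) (fun p => ⟨p.1 ∪ p.2, p.1⟩) ?_ ?_ ?_ ?_ ?_
  · rintro ⟨P, Q⟩ h
    simp only [mem_sigma, mem_powerset, mem_mat, Finset.mem_sdiff, mem_su] at h ⊢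
    obtain ⟨⟨h1, h2⟩, h3⟩ := h
    refine ⟨⟨fun e he => h1 e (h3 he), fun e he e' he' => h2 e (h3 he) e' (h3 he')⟩,
      fun e he => ⟨?_, (h1 e he.1).2⟩, fun e he e' he' => h2 e he.1 e' he'.1⟩
    have k : ∀ k ∈ ({e.1, e.2} : Finset (Fin m)), ¬ ∃ e' ∈ Q, k = e'.1 ∨ k = e'.2 := by
      rintro k hk ⟨e', he', h⟩
      exact disjoint_left.1 (h2 e he.1 e' (h3 he') fun h => he.2 (h ▸ he')) hk (by simpa using h)
    exact ⟨⟨(h1 e he.1).1.1, k _ (by simp)⟩, (h1 e he.1).1.2, k _ (by simp)⟩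
  · rintro ⟨P, Q⟩ h
    simp only [mem_sigma, mem_powerset, mem_mat, Finset.mem_sdiff, mem_su, mem_union] at h ⊢
    obtain ⟨⟨h1, h2⟩, h3, h4⟩ := h
    have k : ∀ e ∈ Q, ∀ e' ∈ P, Disjoint ({e.1, e.2} : Finset (Fin m)) {e'.1, e'.2} := by
      intro e he e' he'
      refine disjoint_left.2 fun k hk hk' => ?_
      rw [mem_insert, mem_singleton] at hk hk'
      rcases hk with rfl | rfl
      exacts [(h3 e he).1.1.2 ⟨e', he', hk'⟩, (h3 e he).1.2.2 ⟨e', he', hk'⟩]
    refine ⟨⟨?_, ?_⟩, subset_union_left⟩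
    · rintro e (he | he)
      exacts [h1 e he, ⟨⟨(h3 e he).1.1.1, (h3 e he).1.2.1⟩, (h3 e he).2⟩]
    · rintro e (he | he) e' (he' | he') h
      exacts [h2 e he e' he' h, (k e' he' e he).symm, k e he e' he', h4 e he e' he' h]
  · rintro ⟨P, Q⟩ h
    simp only [mem_sigma, mem_powerset] at h
    simp [union_sdiff_of_subset h.2]
  · rintro ⟨P, Q⟩ h
    simp only [mem_sigma, mem_mat, Finset.mem_sdiff, mem_su] at h
    simp only [Sigma.mk.injEq, heq_eq_eq, true_and]
    exact union_sdiff_cancel_left (disjoint_left.2 fun e he he' =>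
      (h.2.1 e he').1.1.2 ⟨e, he, Or.inl rfl⟩)
  · rintro ⟨P, Q⟩ h
    simp only [mem_sigma, mem_powerset] at h
    rw [mul_assoc, sdiff_sdiff_left, sup_eq_union, su, su, su, ← union_biUnion,
      union_sdiff_of_subset h.2]

theorem Ex_scale (Z Z' : ℝ) (w : Fin m × Fin m → ℝ) (c : Finset (Fin m) → ℝ) (T : Finset (Fin m)) :
    Ex (fun e => Z ^ 2 * w e) (fun A => Z' * Z ^ A.card * c A) T = Z' * Z ^ T.card * Ex w c T := by
  simp only [Ex_eq, mul_sum, ← mul_neg, prod_mul_distrib, prod_const]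
  refine sum_congr rfl fun P hP => ?_
  rw [← card_su hP]
  ring

end

variable {X : Type*} {A : ℝ → X → Prop} {u v : ℝ → X → ℝ}

/-- Small: at most a positive power of the mesh. -/
def Sm (A : ℝ → X → Prop) (u : ℝ → X → ℝ) : Prop :=
  ∃ κ > (0 : ℝ), ∀ᶠ a in 𝓝[>] (0 : ℝ), ∀ x, A a x → |u a x| ≤ a ^ κ

/-- Bounded, up to arbitrarily small powers of the mesh. -/
def Bd (A : ℝ → X → Prop) (u : ℝ → X → ℝ) : Prop :=
  ∀ η > (0 : ℝ), ∀ᶠ a in 𝓝[>] (0 : ℝ), ∀ x, A a x → |u a x| ≤ a ^ (-η)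

theorem tendsto_rp {t : ℝ} (ht : 0 < t) : Tendsto (fun a : ℝ => a ^ t) (𝓝[>] 0) (𝓝 0) := by
  have := (Real.continuous_rpow_const ht.le).tendsto 0
  rw [Real.zero_rpow ht.ne'] at this
  exact this.mono_left nhdsWithin_le_nhds

theorem ev_le (C : ℝ) {t t' : ℝ} (h : t' < t) : ∀ᶠ a in 𝓝[>] (0 : ℝ), C * a ^ t ≤ a ^ t' := by
  have := ((tendsto_rp (sub_pos.2 h)).const_mul C).eventually
    (ge_mem_nhds (by simp : C * 0 < (1 : ℝ)))
  filter_upwards [this, self_mem_nhdsWithin] with a h1 ha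
  rwa [Real.rpow_sub ha, ← mul_div_assoc, div_le_one (Real.rpow_pos_of_pos ha _)] at h1

theorem Sm.of_le {C t : ℝ} (ht : 0 < t) (h : ∀ᶠ a in 𝓝[>] (0 : ℝ), ∀ x, A a x → |u a x| ≤ C * a ^ t) :
    Sm A u := ⟨t / 2, by positivity, by
  filter_upwards [h, ev_le C (half_lt_self ht)] with a h1 h2 x hx using (h1 x hx).trans h2⟩

theorem Bd.of_le (h : ∀ η > (0 : ℝ), ∃ C, ∀ᶠ a in 𝓝[>] (0 : ℝ), ∀ x, A a x →
    |u a x| ≤ C * a ^ (-η)) : Bd A u := fun η hη => by
  obtain ⟨C, h⟩ := h (η / 2) (by positivity)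
  filter_upwards [h, ev_le C (t' := -η) (t := -(η / 2)) (by linarith)] with a h1 h2 x hx
    using (h1 x hx).trans h2

theorem Sm.mono (h : Sm A v) (h' : ∀ᶠ a in 𝓝[>] (0 : ℝ), ∀ x, A a x → |u a x| ≤ |v a x|) :
    Sm A u := by
  obtain ⟨κ, hκ, h⟩ := h
  exact ⟨κ, hκ, by filter_upwards [h, h'] with a h1 h2 x hx using (h2 x hx).trans (h1 x hx)⟩

theorem Bd.mono (h : Bd A v) (h' : ∀ᶠ a in 𝓝[>] (0 : ℝ), ∀ x, A a x → |u a x| ≤ |v a x|) :
    Bd A u := fun η hη => by
  filter_upwards [h η hη, h'] with a h1 h2 x hx using (h2 x hx).trans (h1 x hx)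

theorem Sm.congr (h : Sm A v) (h' : ∀ᶠ a in 𝓝[>] (0 : ℝ), ∀ x, A a x → u a x = v a x) : Sm A u :=
  h.mono (h'.mono fun _ h x hx => (congrArg _ (h x hx)).le)

theorem Bd.congr (h : Bd A v) (h' : ∀ᶠ a in 𝓝[>] (0 : ℝ), ∀ x, A a x → u a x = v a x) : Bd A u :=
  h.mono (h'.mono fun _ h x hx => (congrArg _ (h x hx)).le)

theorem Bd.const (c : ℝ) : Bd A fun _ _ => c := fun η hη => by
  filter_upwards [ev_le |c| (t := 0) (t' := -η) (by linarith)] with a h x _
  simpa using h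

theorem Sm.zero : Sm A fun _ _ => 0 :=
  ⟨1, one_pos, eventually_mem_nhdsWithin.mono fun a ha x _ => by simpa using le_of_lt ha⟩

theorem Sm.bd (h : Sm A u) : Bd A u := fun η hη => by
  obtain ⟨κ, hκ, h⟩ := h
  filter_upwards [h, ev_le 1 (t := κ) (t' := -η) (by linarith)] with a h1 h2 x hx
  linarith [h1 x hx]

theorem Sm.add (h : Sm A u) (h' : Sm A v) : Sm A fun a x => u a x + v a x := by
  obtain ⟨κ, hκ, h⟩ := h
  obtain ⟨κ', hκ', h'⟩ := h'
  refine Sm.of_le (C := 2) (lt_min hκ hκ') ?_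
  filter_upwards [h, h', Ioo_mem_nhdsGT one_pos] with a h1 h2 ha x hx
  linarith [abs_add_le (u a x) (v a x), h1 x hx, h2 x hx,
    Real.rpow_le_rpow_of_exponent_ge ha.1 ha.2.le (min_le_left κ κ'),
    Real.rpow_le_rpow_of_exponent_ge ha.1 ha.2.le (min_le_right κ κ')]

theorem Bd.add (h : Bd A u) (h' : Bd A v) : Bd A fun a x => u a x + v a x :=
  Bd.of_le fun η hη => ⟨2, by
    filter_upwards [h η hη, h' η hη] with a h1 h2 x hx
    linarith [abs_add_le (u a x) (v a x), h1 x hx, h2 x hx]⟩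

theorem Bd.mul (h : Bd A u) (h' : Bd A v) : Bd A fun a x => u a x * v a x := fun η hη => by
  filter_upwards [h (η / 2) (by positivity), h' (η / 2) (by positivity), self_mem_nhdsWithin]
    with a h1 h2 ha x hx
  rw [abs_mul, show -η = -(η / 2) + -(η / 2) by ring, Real.rpow_add ha]
  exact mul_le_mul (h1 x hx) (h2 x hx) (abs_nonneg _) (Real.rpow_nonneg (le_of_lt ha) _)

theorem Sm.mul (h : Sm A u) (h' : Bd A v) : Sm A fun a x => u a x * v a x := by
  obtain ⟨κ, hκ, h⟩ := h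
  refine ⟨κ / 2, by positivity, ?_⟩
  filter_upwards [h, h' (κ / 2) (by positivity), self_mem_nhdsWithin] with a h1 h2 ha x hx
  rw [abs_mul, show κ / 2 = κ + -(κ / 2) by ring, Real.rpow_add ha]
  exact mul_le_mul (h1 x hx) (h2 x hx) (abs_nonneg _) (Real.rpow_nonneg (le_of_lt ha) _)

theorem Bd.mul_sm (h : Bd A u) (h' : Sm A v) : Sm A fun a x => u a x * v a x := by
  simpa only [mul_comm] using h'.mul h

theorem Sm.neg (h : Sm A u) : Sm A fun a x => -u a x :=
  h.mono (Eventually.of_forall fun _ _ _ => (abs_neg _).le)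

theorem Bd.neg (h : Bd A u) : Bd A fun a x => -u a x :=
  h.mono (Eventually.of_forall fun _ _ _ => (abs_neg _).le)

theorem Sm.sub (h : Sm A u) (h' : Sm A v) : Sm A fun a x => u a x - v a x := by
  simpa only [sub_eq_add_neg] using h.add h'.neg

theorem Bd.sub (h : Bd A u) (h' : Bd A v) : Bd A fun a x => u a x - v a x := by
  simpa only [sub_eq_add_neg] using h.add h'.neg

theorem Sm.sum {ι : Type*} (s : Finset ι) {u : ι → ℝ → X → ℝ} (h : ∀ i ∈ s, Sm A (u i)) :
    Sm A fun a x => ∑ i ∈ s, u i a x := by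
  classical
  induction s using Finset.induction_on with
  | empty => simpa using Sm.zero
  | insert i s hi ih =>
    simp only [sum_insert hi]
    exact (h i (mem_insert_self _ _)).add (ih fun j hj => h j (mem_insert_of_mem hj))

theorem Bd.sum {ι : Type*} (s : Finset ι) {u : ι → ℝ → X → ℝ} (h : ∀ i ∈ s, Bd A (u i)) :
    Bd A fun a x => ∑ i ∈ s, u i a x := by
  classical
  induction s using Finset.induction_on with
  | empty => simpa using Bd.const 0
  | insert i s hi ih =>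
    simp only [sum_insert hi]
    exact (h i (mem_insert_self _ _)).add (ih fun j hj => h j (mem_insert_of_mem hj))

theorem Bd.prod {ι : Type*} (s : Finset ι) {u : ι → ℝ → X → ℝ} (h : ∀ i ∈ s, Bd A (u i)) :
    Bd A fun a x => ∏ i ∈ s, u i a x := by
  classical
  induction s using Finset.induction_on with
  | empty => simpa using Bd.const 1
  | insert i s hi ih =>
    simp only [prod_insert hi]
    exact (h i (mem_insert_self _ _)).mul (ih fun j hj => h j (mem_insert_of_mem hj))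

theorem Sm.mul_sub {u' v' : ℝ → X → ℝ} (h : Sm A fun a x => u a x - u' a x)
    (h' : Sm A fun a x => v a x - v' a x) (b : Bd A u') (b' : Bd A v) :
    Sm A fun a x => u a x * v a x - u' a x * v' a x :=
  ((h.mul b').add (b.mul_sm h')).congr (Eventually.of_forall fun _ _ _ => by ring)

theorem Sm.prod_sub {ι : Type*} (s : Finset ι) {u v : ι → ℝ → X → ℝ}
    (h : ∀ i ∈ s, Sm A fun a x => u i a x - v i a x) (b : ∀ i ∈ s, Bd A (u i)) :
    Sm A fun a x => ∏ i ∈ s, u i a x - ∏ i ∈ s, v i a x := by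
  classical
  induction s using Finset.induction_on with
  | empty => simpa using Sm.zero
  | insert i s hi ih =>
    simp only [prod_insert hi]
    have h1 := h i (mem_insert_self _ _)
    exact h1.mul_sub (ih (fun j hj => h j (mem_insert_of_mem hj))
      fun j hj => b j (mem_insert_of_mem hj)) (((b i (mem_insert_self _ _)).sub h1.bd).congr
        (Eventually.of_forall fun _ _ _ => by ring))
      (Bd.prod s fun j hj => b j (mem_insert_of_mem hj))

variable {m : ℕ} {w w' : Fin m × Fin m → ℝ → X → ℝ} {c c' : Finset (Fin m) → ℝ → X → ℝ}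

theorem Bd.ex (hw : ∀ e, Bd A (w e)) (hc : ∀ T, Bd A (c T)) (T : Finset (Fin m)) :
    Bd A fun a x => Ex (fun e => w e a x) (fun T => c T a x) T :=
  Bd.sum _ fun P _ => (Bd.prod P fun e _ => (hw e).neg).mul (hc _)

theorem Sm.ex (hw : ∀ e, Sm A fun a x => w e a x - w' e a x) (bw : ∀ e, Bd A (w' e))
    (hc : ∀ T, Sm A fun a x => c T a x - c' T a x) (bc : ∀ T, Bd A (c T)) (T : Finset (Fin m)) :
    Sm A fun a x => Ex (fun e => w e a x) (fun T => c T a x) T -
      Ex (fun e => w' e a x) (fun T => c' T a x) T := by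
  simp only [Ex_eq, ← sum_sub_distrib]
  refine Sm.sum _ fun P _ => Sm.mul_sub (Sm.prod_sub P (u := fun e a x => -w e a x)
    (fun e _ => (hw e).neg.congr (Eventually.of_forall fun _ _ _ => by ring)) fun e _ =>
      (((hw e).bd.add (bw e)).neg).congr (Eventually.of_forall fun _ _ _ => by ring)) (hc _)
    (Bd.prod P fun e _ => (bw e).neg) (bc _)

end Vale.Agent.P144DR
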