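import Vale.Agent.P144DR.Blk
import Vale.Agent.P144DR.Ex
import Vale.Agent.P144DD.H
import Mathlib.Analysis.PSeries

/-!
The two-point function of the energy in a translation-invariant state.
-/

namespace Vale.Agent.P144DR

open Filter Topology MeasureTheory Vale.Agent.P144 Vale.Agent.P144Z Vale.Agent.P144F
open Vale.Agent.P144DD Finset

/-- One plus the distance to the origin. -/
noncomputable def nz (w : Site) : ℝ := 1 + zd w 0

theorem one_le_nz (w : Site) : 1 ≤ nz w := le_add_of_nonneg_right (Nat.cast_nonneg _)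

theorem nz_pos (w : Site) : 0 < nz w := one_pos.trans_le (one_le_nz w)

theorem summable_nz {ε : ℝ} (hε : 0 < ε) : Summable fun w => nz w ^ (-(2 + ε)) := by
  have h := (Real.summable_one_div_int_add_rpow (1 / 2) (1 + ε / 2)).2 (by linarith)
  have p : ∀ n : ℤ, 0 < |(n : ℝ) + 1 / 2| := fun n => abs_pos.2 fun e => by
    have : (2 * n + 1 : ℤ) = 0 := by exact_mod_cast (by linarith : (2 * n + 1 : ℝ) = 0)
    omega
  refine (h.mul_of_nonneg h (fun _ => by positivity) fun _ => by positivity).of_nonneg_of_le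
    (fun w => (Real.rpow_pos_of_pos (nz_pos w) _).le) fun w => ?_
  have k : ∀ n : ℤ, n.natAbs ≤ zd w 0 → nz w ^ (-(1 + ε / 2)) ≤ 1 / |(n : ℝ) + 1 / 2| ^ (1 + ε / 2) := by
    intro n hn
    rw [one_div, ← Real.rpow_neg (p n).le]
    refine Real.rpow_le_rpow_of_nonpos (p n) ?_ (by linarith)
    have h1 : |(n : ℝ)| ≤ zd w 0 := by
      rw [← Int.cast_abs, ← Int.natCast_natAbs]
      exact_mod_cast hn
    have := abs_add_le (n : ℝ) (1 / 2)
    rw [abs_of_pos (a := (1 / 2 : ℝ)) (by norm_num)] at this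
    rw [nz]
    linarith
  rw [show -(2 + ε) = -(1 + ε / 2) + -(1 + ε / 2) by ring, Real.rpow_add (nz_pos w)]
  exact mul_le_mul (k _ (by simp [zd])) (k _ (by simp [zd]))
    (Real.rpow_pos_of_pos (nz_pos w) _).le (by positivity)

theorem map_fl {a : ℝ} (ha : 0 < a) :
    Measure.map (fl a) volume = ENNReal.ofReal (a ^ 2) • Measure.count :=
  Measure.ext_of_singleton fun c => by
    rw [Measure.map_apply (meas_fl a) (measurableSet_singleton c), vol_cell ha]
    simp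

theorem int_lat {a : ℝ} (ha : 0 < a) {H : Site → ℝ} (h : Summable H) (u : Site) :
    Integrable (fun v => H (fl a v - u)) ∧ ∫ v, H (fl a v - u) = a ^ 2 * ∑' w, H w := by
  have h' : Summable fun w => H (w - u) := (Equiv.subRight u).summable_iff.2 h
  have i : Integrable (fun w => H (w - u)) (Measure.map (fl a) volume) := by
    rw [map_fl ha]
    exact (integrable_count_iff.2 h'.norm).smul_measure ENNReal.ofReal_ne_top
  refine ⟨(integrable_map_measure i.1 (meas_fl a).aemeasurable).1 i, ?_⟩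
  rw [← integral_map (meas_fl a).aemeasurable i.1, integral_countable i, map_fl ha,
    ← (Equiv.subRight u).tsum_eq H, ← tsum_mul_left]
  simp [Measure.real, ENNReal.toReal_ofReal (sq_nonneg a)]

/-- The two-point function of the rescaled energy. -/
noncomputable def G2 (μ : Measure Config) (j j' : Fin 2) (a : ℝ) (v v' : ℂ) : ℝ :=
  ∫ σ, En μ j a v σ * En μ j' a v' σ ∂μ

theorem corr_G2 {E : (Config → ℝ) → ℝ} {μ : Measure Config} (h : ∀ F, E F = ∫ σ, F σ ∂μ) (a : ℝ)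
    (v v' : ℂ) (j j' : Fin 2) : corr a E (ens ![v, v'] ![j, j']) = G2 μ j j' a v v' := by
  simp [corr_kc h, kc, kern, ens, G2]

theorem fl_site {a : ℝ} (ha : 0 < a) (w : Site) : fl a ⟨a * w.1, a * w.2⟩ = w := by
  simp [fl, mul_div_cancel_left₀ _ ha.ne']

theorem fl_zero (a : ℝ) : fl a 0 = 0 := by simp [fl]

theorem Inv.int {μ : Measure Config} (h : Inv μ) (t : Site) {F : Config → ℝ} (hF : Measurable F) :
    ∫ σ, F (fun x => σ (x + t)) ∂μ = ∫ σ, F σ ∂μ := by
  conv_rhs => rw [← h.2 t]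
  exact (integral_map (measurable_pi_lambda _ fun _ => measurable_pi_apply _).aemeasurable
    hF.aestronglyMeasurable).symm

theorem G2_eq {μ : Measure Config} (h : Inv μ) (j j' : Fin 2) (a : ℝ) (v v' : ℂ) :
    G2 μ j j' a v v' = (a ^ 2)⁻¹ * g2 μ j j' (fl a v' - fl a v) := by
  have m : ∀ (y : Site) (d : Fin 2), Measurable fun σ : Config => sp (σ y) * sp (σ (y + dir d)) :=
    fun y d => ((measurable_of_countable sp).comp (measurable_pi_apply y)).mul
      ((measurable_of_countable sp).comp (measurable_pi_apply _))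
  have e : ∀ (y : Site) (d : Fin 2), ∫ σ, sp (σ (y + fl a v)) * sp (σ (y + fl a v + dir d)) ∂μ =
      ∫ σ, sp (σ y) * sp (σ (y + dir d)) ∂μ := fun y d => by
    simpa only [add_right_comm y (dir d)] using h.int (fl a v) (m y d)
  have e1 := fl_site one_pos (fl a v' - fl a v)
  simp only [one_mul] at e1
  rw [g2, corr_G2 fun _ => rfl, G2, G2, ← integral_const_mul]
  simp only [En, e1, fl_zero, inv_one, one_mul]
  refine Eq.trans ?_ (h.int (fl a v) (measurable_const.mul (((m _ _).sub measurable_const).mul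
    ((m _ _).sub measurable_const))))
  rw [← e 0 j, ← e (fl a v' - fl a v) j']
  refine integral_congr_ae (Eventually.of_forall fun σ => ?_)
  simp only [zero_add, sub_add_cancel, add_comm (dir j), add_right_comm (fl a v' - fl a v) (dir j')]
  ring

theorem abs_g2 (μ : Measure Config) [IsProbabilityMeasure μ] (j j' : Fin 2) (w : Site) :
    |g2 μ j j' w| ≤ 4 := by
  rw [g2, corr_G2 fun _ => rfl]
  have := norm_integral_le_of_norm_le_const (μ := μ) (C := 4)
    (f := fun σ => En μ j 1 0 σ * En μ j' 1 ⟨w.1, w.2⟩ σ) (Eventually.of_forall fun σ => by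
      have h1 := (ker_En μ j one_pos).2 0 σ
      have h2 := (ker_En μ j' one_pos).2 ⟨w.1, w.2⟩ σ
      rw [Real.one_rpow] at h1 h2
      rw [Real.norm_eq_abs, abs_mul]
      nlinarith [abs_nonneg (En μ j 1 0 σ), abs_nonneg (En μ j' 1 ⟨w.1, w.2⟩ σ)])
  simpa [G2] using this

theorem decay_of {d : Site → ℝ} {B C t : ℝ} (ht : 0 ≤ t) (hB : ∀ w, |d w| ≤ B)
    (h : ∀ᶠ a in 𝓝[>] (0 : ℝ), ∀ y : ℂ, 1 ≤ ‖y‖ → ‖y‖ ≤ 2 → |(a ^ 2)⁻¹ * d (fl a y)| ≤ C * a ^ t) :
    ∃ C', ∀ w, |d w| ≤ C' * nz w ^ (-(2 + t)) := by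
  obtain ⟨a₁, a0, h⟩ := (nhdsGT_basis 0).eventually_iff.1 h
  refine ⟨|B| * (2 + a₁⁻¹) ^ (2 + t) + |C| * 2 ^ (2 + t), fun w => ?_⟩
  have p := nz_pos w
  rw [Real.rpow_neg p.le, ← div_eq_mul_inv, le_div_iff₀ (by positivity)]
  rcases le_or_gt (zd w 0 : ℝ) (1 + a₁⁻¹) with hw | hw
  · refine le_trans (mul_le_mul ((hB w).trans (le_abs_self B)) (Real.rpow_le_rpow p.le
      (show nz w ≤ 2 + a₁⁻¹ by rw [nz]; linarith) (by positivity)) (by positivity) (abs_nonneg _))
      (le_add_of_nonneg_right (by positivity))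
  have i0 := inv_pos.2 a0
  set r : ℝ := (zd w 0 : ℝ) with hr
  have r0 : 0 < r := by linarith
  have b1 : |(w.1 : ℝ)| ≤ r ∧ |(w.2 : ℝ)| ≤ r ∧ (r = |(w.1 : ℝ)| ∨ r = |(w.2 : ℝ)|) := by
    simp only [hr, zd, Prod.fst_zero, Prod.snd_zero, sub_zero, Nat.cast_max, Nat.cast_natAbs,
      Int.cast_abs, le_max_left, le_max_right, true_and]
    exact max_choice _ _
  set y : ℂ := ⟨r⁻¹ * w.1, r⁻¹ * w.2⟩ with hy
  have e : ∀ u : ℝ, |r⁻¹ * u| = |u| / r := fun u => by
    rw [abs_mul, abs_of_pos (inv_pos.2 r0), div_eq_inv_mul]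
  have k := h (show r⁻¹ ∈ Set.Ioo 0 a₁ from ⟨inv_pos.2 r0, inv_lt_of_inv_lt₀ a0 (by linarith)⟩) y
    (by
      rcases b1.2.2 with b | b
      · exact le_trans (by rw [e, ← b, div_self r0.ne']) (Complex.abs_re_le_norm y)
      · exact le_trans (by rw [e, ← b, div_self r0.ne']) (Complex.abs_im_le_norm y))
    ((Complex.norm_le_abs_re_add_abs_im y).trans (by
      rw [e, e]
      linarith [(div_le_one r0).2 b1.1, (div_le_one r0).2 b1.2.1]))
  rw [fl_site (inv_pos.2 r0), abs_mul, inv_pow, inv_inv, abs_of_pos (by positivity),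
    Real.inv_rpow r0.le, ← div_eq_mul_inv, le_div_iff₀ (by positivity)] at k
  have k1 : nz w ^ (2 + t) ≤ 2 ^ (2 + t) * (r ^ 2 * r ^ t) := by
    rw [← Real.rpow_two, ← Real.rpow_add r0, ← Real.mul_rpow zero_le_two r0.le]
    exact Real.rpow_le_rpow p.le (by rw [nz]; linarith) (by positivity)
  refine le_trans ?_ (le_add_of_nonneg_left (by positivity))
  calc _ ≤ |d w| * (2 ^ (2 + t) * (r ^ 2 * r ^ t)) := by gcongr
    _ = r ^ 2 * |d w| * r ^ t * 2 ^ (2 + t) := by ring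
    _ ≤ _ := mul_le_mul_of_nonneg_right (k.trans (le_abs_self C)) (by positivity)

theorem ins_two {y : ℂ} (h : ‖y‖ ≤ 2) (j : Fin 2 → Fin 2) : Ins Set.univ (1 / 2) (ens ![0, y] j) := by
  rintro (i | i)
  · exact i.elim0
  · fin_cases i <;> simp [ens, h]

theorem sep_two {y : ℂ} {t : ℝ} (h : t ≤ ‖y‖) (j : Fin 2 → Fin 2) : Sep t (ens ![0, y] j) := by
  rintro (i | i) (i' | i') e
  exacts [i.elim0, i.elim0, i'.elim0, by fin_cases i <;> fin_cases i' <;> simp_all [ens]]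

theorem g0_le {μ₀ : Measure Config} (h₀ : Inv μ₀) (hM : Maj Set.univ (famOf μ₀)) (j j' : Fin 2) :
    ∃ C, ∀ w, |g2 μ₀ j j' w| ≤ C * nz w ^ (-(2 + 0 : ℝ)) := by
  have := h₀.1
  obtain ⟨C, h⟩ := hM 0 2 (1 / 2) (by norm_num)
  refine decay_of (C := C) le_rfl (abs_g2 μ₀ j j') (h.mono fun a h y h1 h2 => ?_)
  have := h (ens ![0, y] ![j, j']) rfl rfl (ins_two h2 _) (fun _ => 1) (by simp) (sep_two h1 _)
  rw [corr_G2 (E := famOf μ₀ a) (μ := μ₀) fun _ => rfl, G2_eq h₀, fl_zero, sub_zero] at this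
  simpa using this

theorem d_le {μ₀ μ : Measure Config} (h₀ : Inv μ₀) (h : Inv μ) {Zσ Zε : ℝ}
    (hU : UDR Set.univ (famOf μ₀) (famOf μ) Zσ Zε) : ∃ t > (0 : ℝ), ∀ j j', ∃ C, ∀ w,
      |g2 μ j j' w - Zε ^ 2 * g2 μ₀ j j' w| ≤ C * nz w ^ (-(2 + t)) := by
  have := h₀.1
  have := h.1
  obtain ⟨θ, hθ, hU⟩ := hU 0 2 (1 / 2) (by norm_num)
  refine ⟨θ, hθ, fun j j' => decay_of (B := 4 + Zε ^ 2 * 4) (C := 1) hθ.le (fun w =>
    (abs_sub _ _).trans (add_le_add (abs_g2 μ j j' w) ?_)) ?_⟩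
  · rw [abs_mul, abs_of_nonneg (sq_nonneg _)]
    exact mul_le_mul_of_nonneg_left (abs_g2 μ₀ j j' w) (sq_nonneg _)
  filter_upwards [hU, Ioo_mem_nhdsGT one_pos] with a hU ha y h1 h2
  have := hU (ens ![0, y] ![j, j']) rfl rfl (ins_two h2 _)
    (sep_two ((Real.rpow_le_one ha.1.le ha.2.le hθ.le).trans h1) _)
  rw [corr_G2 (E := famOf μ₀ a) (μ := μ₀) fun _ => rfl,
    corr_G2 (E := famOf μ a) (μ := μ) fun _ => rfl, G2_eq h₀, G2_eq h, fl_zero, sub_zero] at this
  rw [one_mul, mul_sub, mul_left_comm]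
  simpa [ens] using this

theorem bd_k0 {μ₀ : Measure Config} (h₀ : Inv μ₀) (hM : Maj Set.univ (famOf μ₀)) (j j' : Fin 2)
    {X : Type*} {A : ℝ → X → Prop} : Bd A fun a _ => k0 μ₀ a j j' := by
  obtain ⟨C, h⟩ := g0_le h₀ hM j j'
  refine Bd.of_le fun η hη => ⟨|C| * 2 ^ η * ∑' w, nz w ^ (-(2 + η)), ?_⟩
  filter_upwards [Ioo_mem_nhdsGT one_pos] with a ha x _
  have i1 := (one_le_inv₀ ha.1).2 ha.2.le
  have a0 := Real.rpow_pos_of_pos ha.1 (-η)
  refine (abs_sum_le_sum_abs _ _).trans ((sum_le_sum (g := fun w => |C| * 2 ^ η * a ^ (-η) *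
    nz w ^ (-(2 + η))) fun w hw => ?_).trans ?_)
  · have p := nz_pos w
    have k1 : nz w ≤ 2 * a⁻¹ := by
      have k2 : zd w 0 ≤ ⌊a⁻¹⌋₊ := by
        simp only [bx, mem_product, mem_Icc] at hw
        simp only [zd, Prod.fst_zero, Prod.snd_zero]
        omega
      linarith [(Nat.cast_le.2 k2).trans (Nat.floor_le (by positivity : 0 ≤ a⁻¹)), nz.eq_1 w]
    have k3 := Real.rpow_le_rpow p.le k1 hη.le
    rw [Real.mul_rpow zero_le_two (by positivity), Real.inv_rpow ha.1.le,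
      ← Real.rpow_neg ha.1.le] at k3
    refine (h w).trans ?_
    rw [show -(2 + 0 : ℝ) = η + -(2 + η) by ring, Real.rpow_add p, ← mul_assoc, mul_assoc |C|]
    exact mul_le_mul_of_nonneg_right (mul_le_mul (le_abs_self C) k3 (by positivity) (abs_nonneg _))
      (by positivity)
  · rw [← mul_sum, mul_right_comm _ (tsum _)]
    exact mul_le_mul_of_nonneg_left ((summable_nz hη).sum_le_tsum _ fun w _ =>
      (Real.rpow_pos_of_pos (nz_pos w) _).le) (by positivity)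

end Vale.Agent.P144DR
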