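import Vale.Agent.P144DR.Ll
import Vale.Agent.P144DR.Lat

/-!
The mean of the pairs of energies in the same cell is universal, up to a contact term.
-/

namespace Vale.Agent.P144DR

open Filter Topology MeasureTheory Vale.Agent.P144 Vale.Agent.P144Z Vale.Agent.P144F
open Vale.Agent.P144DD Finset

theorem int_QQ {U U' : ℂ → Config → ℝ} {b b' : ℝ} {f f' : ℂ → ℝ} {g : ℂ → Site}
    {W : Site → Site → ℝ} (μ : Measure Config) [IsProbabilityMeasure μ] (hU : Ker U b)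
    (hU' : Ker U' b') (h : Mi f) (h' : Mi f') (hg : Measurable g) {B : ℝ} (hW : ∀ u u', |W u u'| ≤ B) :
    (∀ v, Integrable fun w => W (g v) (g w) * f' w * ∫ σ, U v σ * U' w σ ∂μ) ∧
    (Integrable fun v => f v * ∫ w, W (g v) (g w) * f' w * ∫ σ, U v σ * U' w σ ∂μ) ∧
    ∫ σ, QQ U U' f f' g W σ ∂μ = ∫ v, f v * ∫ w, W (g v) (g w) * f' w * ∫ σ, U v σ * U' w σ ∂μ := by
  obtain ⟨c, k⟩ := ker_QQ hU hU' h' hg hW
  have k1 := fun v => (ker_mul hU' (bm_ker hU v)).elim fun c k =>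
    int_fd (μ := μ) k (mi_mul h' hg (hW (g v)))
  have k2 := int_fd (μ := μ) k h
  simp only [mul_comm (U' _ _), fd, mul_left_comm _ (U _ _), integral_const_mul] at k1
  simp only [fd, fun v => (k1 v).2] at k2
  exact ⟨fun v => (k1 v).1, k2.1, k2.2⟩

theorem vol_nd {R s τ : ℝ} (R0 : 0 < R) (hs : 0 < s) (s1 : s ≤ 1) (τ0 : 0 ≤ τ) (τ1 : τ ≤ 1) :
    ∃ N : Set ℂ, MeasurableSet N ∧ volume N ≤ ENNReal.ofReal (8 * R * (2 * R + 5) * (τ / s)) ∧
      ∀ v ∉ N, ‖v‖ ≤ R → ∀ w, ‖v - w‖ ≤ τ → fl s v = fl s w := by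
  set M := ⌈(R + 1) / s⌉₊ with hM
  set A := ⋃ n ∈ Icc (-M : ℤ) M, Set.Icc (n * s - τ) (n * s + τ) with hA
  have mA : MeasurableSet A := Finset.measurableSet_biUnion _ fun _ _ => measurableSet_Icc
  have vA : volume A ≤ ENNReal.ofReal ((2 * M + 1) * (2 * τ)) := by
    refine (measure_biUnion_finset_le _ _).trans_eq ?_
    simp only [Real.volume_Icc, add_sub_sub_cancel, sum_const, Int.card_Icc, nsmul_eq_mul]
    rw [show ((M : ℤ) + 1 - -M).toNat = 2 * M + 1 by omega, ENNReal.ofReal_mul (by positivity),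
      two_mul τ, ← ENNReal.ofReal_natCast]
    push_cast
    rfl
  have k : ∀ x y : ℝ, |x| ≤ R → |x - y| ≤ τ → x ∉ A → ⌊x / s⌋ = ⌊y / s⌋ := fun x y hx h hA' => by
    have k1 : ∀ n : ℤ, (n * s ≤ x → y < n * s → False) ∧ (x < n * s → n * s ≤ y → False) := by
      intro n
      rw [abs_le] at h hx
      have k2 : |n * s - x| ≤ τ → False := fun k2 => hA' (Set.mem_biUnion (x := n) (by
        rw [abs_le] at k2
        have k3 := (div_le_iff₀ hs).1 (Nat.le_ceil ((R + 1) / s))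
        rw [mem_coe, mem_Icc, ← Int.cast_le (R := ℝ), ← Int.cast_le (R := ℝ)]
        push_cast
        constructor <;> nlinarith) (by rw [abs_le] at k2; constructor <;> linarith))
      exact ⟨fun a b => k2 (abs_le.2 ⟨by linarith, by linarith⟩),
        fun a b => k2 (abs_le.2 ⟨by linarith, by linarith⟩)⟩
    refine le_antisymm (not_lt.1 fun e => (k1 _).1 ((le_div_iff₀ hs).1 (Int.floor_le _))
      ((div_lt_iff₀ hs).1 (Int.floor_lt.1 e))) (not_lt.1 fun e => (k1 _).2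
        ((div_lt_iff₀ hs).1 (Int.floor_lt.1 e)) ((le_div_iff₀ hs).1 (Int.floor_le _)))
  refine ⟨Complex.measurableEquivRealProd ⁻¹' (A ×ˢ Set.Icc (-R) R ∪ Set.Icc (-R) R ×ˢ A),
    Complex.measurableEquivRealProd.measurable ((mA.prod measurableSet_Icc).union
      (measurableSet_Icc.prod mA)), ?_, fun v hv h w hw => ?_⟩
  · rw [Complex.volume_preserving_equiv_real_prod.measure_preimage_equiv]
    refine (measure_union_le _ _).trans ?_
    rw [Measure.volume_eq_prod, Measure.prod_prod, Measure.prod_prod, mul_comm, ← two_mul,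
      Real.volume_Icc, ← ENNReal.ofReal_ofNat]
    refine (mul_le_mul_right (mul_le_mul_right vA _) _).trans ?_
    rw [← ENNReal.ofReal_mul (by linarith), ← ENNReal.ofReal_mul zero_le_two]
    refine ENNReal.ofReal_le_ofReal ?_
    have := ceil_le (R := R + 1) (by positivity) hs
    rw [← mul_div_assoc, le_div_iff₀ hs]
    nlinarith [mul_le_mul_of_nonneg_left (show (2 * M + 1 : ℝ) * s ≤ 2 * R + 5 by linarith)
      (by positivity : 0 ≤ 8 * R * τ)]
  · have h1 := (Complex.abs_re_le_norm v).trans h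
    have h2 := (Complex.abs_im_le_norm v).trans h
    exact Prod.ext (k _ _ h1 ((Complex.abs_re_le_norm (v - w)).trans hw)
      fun e => hv (Or.inl ⟨e, abs_le.1 h2⟩)) (k _ _ h2 ((Complex.abs_im_le_norm (v - w)).trans hw)
        fun e => hv (Or.inr ⟨abs_le.1 h1, e⟩))

/-- The two-point function is close to the one of the lattice function `γ`. -/
def LC (μ : ℝ → Measure Config) (U U' : ℝ → ℂ → Config → ℝ) (γ : Site → ℝ) (K : Set ℂ) : Prop :=
  ∀ θ > (0 : ℝ), ∃ κ > (0 : ℝ), ∀ᶠ a in 𝓝[>] (0 : ℝ), ∀ v ∈ K, ∀ w ∈ K, ‖v - w‖ ≤ a ^ θ →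
    |∫ σ, U a v σ * U' a w σ ∂μ a - (a ^ 2)⁻¹ * γ (fl a w - fl a v)| * (‖v - w‖ + a) ^ 2 ≤ a ^ κ

theorem nz_fl {a : ℝ} (ha : 0 < a) (v w : ℂ) :
    a * nz (fl a w - fl a v) ≤ 2 * (‖v - w‖ + a) ∧ ‖v - w‖ ≤ 2 * a * nz (fl a w - fl a v) := by
  obtain ⟨h1, h2⟩ := P144DY.zd_fl ha w v
  rw [nz, show zd (fl a w - fl a v) 0 = zd (fl a w) (fl a v) by simp [zd], norm_sub_rev]
  rw [← sub_le_iff_le_add, le_div_iff₀ ha] at h1
  rw [div_le_iff₀ ha] at h2
  constructor <;> nlinarith [norm_nonneg (w - v)]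

theorem LC.le {μ : ℝ → Measure Config} {U U' : ℝ → ℂ → Config → ℝ} {γ : Site → ℝ} {K : Set ℂ}
    (h : LC μ U U' γ K) {θ : ℝ} (hθ : 0 < θ) : ∃ κ > (0 : ℝ), ∀ η > 0, η ≤ κ → ∀ᶠ a in 𝓝[>] (0 : ℝ),
      ∀ v ∈ K, ∀ w ∈ K, ‖v - w‖ ≤ a ^ θ → |∫ σ, U a v σ * U' a w σ ∂μ a -
        (a ^ 2)⁻¹ * γ (fl a w - fl a v)| ≤ a ^ η * ((a ^ 2)⁻¹ * nz (fl a w - fl a v) ^ (-(2 + η))) := by
  obtain ⟨κ, hκ, h⟩ := h θ hθ
  refine ⟨κ / 3, by positivity, fun η hη h1 => ?_⟩
  filter_upwards [h, Ioo_mem_nhdsGT one_pos, ev_le (4 * 4 ^ η) (t := κ) (t' := η + η) (by linarith)]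
    with a h ha e v hv w hw hd
  have p := nz_pos (fl a w - fl a v)
  have k1 := (nz_fl ha.1 v w).1
  have k2 := h v hv w hw hd
  have k3 := Real.rpow_le_rpow (mul_pos ha.1 p).le (show _ ≤ 4 by
    linarith [Real.rpow_le_one ha.1.le ha.2.le hθ.le, ha.2]) hη.le
  have a0 := ha.1
  have a1 := Real.rpow_pos_of_pos ha.1 η
  rw [Real.mul_rpow ha.1.le p.le] at k3
  rw [Real.rpow_add ha.1] at e
  rw [Real.rpow_neg p.le, ← mul_inv, ← div_eq_mul_inv, le_div_iff₀ (by positivity), Real.rpow_add p,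
    Real.rpow_two]
  refine le_of_mul_le_mul_left (le_trans ?_ e) a1
  have x0 := abs_nonneg (∫ σ, U a v σ * U' a w σ ∂μ a - (a ^ 2)⁻¹ * γ (fl a w - fl a v))
  generalize |∫ σ, U a v σ * U' a w σ ∂μ a - (a ^ 2)⁻¹ * γ (fl a w - fl a v)| = x at k2 x0 ⊢
  calc _ = x * (a * nz (fl a w - fl a v)) ^ 2 * (a ^ η * nz (fl a w - fl a v) ^ η) := by ring
    _ ≤ x * (2 * (‖v - w‖ + a)) ^ 2 * 4 ^ η := by gcongr
    _ = 4 * 4 ^ η * (x * (‖v - w‖ + a) ^ 2) := by ring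
    _ ≤ _ := by gcongr

theorem int3 {f g h : ℂ → ℝ} (hf : Integrable f) (hg : Integrable g) (hh : Integrable h) (Z c : ℝ) :
    (Integrable fun x => f x - Z * g x - c * h x) ∧
      ∫ x, (f x - Z * g x - c * h x) = (∫ x, f x) - Z * (∫ x, g x) - c * ∫ x, h x := by
  have i : Integrable fun x => f x - Z * g x := hf.sub (hg.const_mul Z)
  rw [integral_sub i (hh.const_mul c), integral_sub hf (hg.const_mul Z), integral_const_mul,
    integral_const_mul]
  exact ⟨i.sub (hh.const_mul c), rfl⟩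

/-- The smeared delta function. -/
noncomputable def dh (a : ℝ) (f f' : ℂ → ℝ) : ℝ :=
  QQ (fun _ _ => 1) (fun _ _ => 1) f f' (fl a) (fun u u' => if u = u' then (a ^ 2)⁻¹ else 0)
    fun _ => true

theorem ker_one : Ker (fun _ _ => 1) 1 := ⟨measurable_const, fun _ _ => abs_one.le⟩

theorem deep {a s η t β : ℝ} (a0 : 0 < a) (a1 : a < 1) (η0 : 0 < η) (η1 : η ≤ t / 2) (η2 : η ≤ 1)
    {f : ℂ → ℝ} (hf : ∀ z, |f z| ≤ 1)
    (lip : ∀ v w, fl s v = fl s w → |f w - f v| ≤ a ^ (-(1 / 2) : ℝ) * ‖v - w‖) {v : ℂ}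
    (hβ : 2 ≤ β ∨ 4 * a ^ (η / 4) ≤ β ∧ ∀ w, ‖v - w‖ ≤ a ^ (3 / 4 : ℝ) → fl s v = fl s w) (w : ℂ)
    (ω D B : ℝ) (h1 : |ω| ≤ 1) (h2 : fl s v = fl s w → ω = 1)
    (h3 : |D| ≤ B * nz (fl a w - fl a v) ^ (-(2 + t))) :
    |(ω * f w - f v) * D| ≤ β * |B| * nz (fl a w - fl a v) ^ (-(2 + η)) := by
  have k0 := (nz_fl a0 v w).2
  have p1 := one_le_nz (fl a w - fl a v)
  generalize nz (fl a w - fl a v) = ν at *
  have p : 0 < ν := by linarith
  have τ0 := Real.rpow_pos_of_pos a0 (3 / 4)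
  have r0 := Real.rpow_pos_of_pos a0 (η / 4)
  have k1 : |ω * f w - f v| ≤ 2 := (abs_sub _ _).trans (by
    rw [abs_mul]
    linarith [mul_le_one₀ h1 (abs_nonneg _) (hf w), hf v])
  have k2 := mul_le_of_le_one_right (abs_nonneg (ω * f w - f v))
    (Real.rpow_le_one_of_one_le_of_nonpos p1 (neg_nonpos.2 η0.le))
  have k3 : |ω * f w - f v| * ν ^ (-η) ≤ β := by
    rcases hβ with hβ | ⟨hβ, hN⟩
    · linarith
    rcases le_or_gt ‖v - w‖ (a ^ (3 / 4 : ℝ)) with hw | hw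
    · have k4 := (lip v w (hN w hw)).trans (mul_le_mul_of_nonneg_left hw (by positivity))
      rw [← Real.rpow_add a0, show (-(1 / 2) + 3 / 4 : ℝ) = 1 / 4 by norm_num] at k4
      rw [h2 (hN w hw), one_mul] at k2 ⊢
      linarith [Real.rpow_le_rpow_of_exponent_ge a0 a1.le (show η / 4 ≤ 1 / 4 by linarith)]
    · have k4 : (2 * a ^ (1 / 4 : ℝ))⁻¹ ≤ ν := by
        have e : a ^ (3 / 4 : ℝ) * a ^ (1 / 4 : ℝ) = a := by rw [← Real.rpow_add a0]; norm_num
        rw [inv_le_iff_one_le_mul₀' (by positivity)]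
        refine le_of_mul_le_mul_left ?_ τ0
        rw [← mul_assoc, mul_left_comm, e]
        linarith
      have k5 := Real.rpow_le_rpow_of_nonpos (by positivity) k4 (neg_nonpos.2 η0.le)
      rw [Real.inv_rpow (by positivity), ← Real.rpow_neg (by positivity), neg_neg,
        Real.mul_rpow zero_le_two (by positivity), ← Real.rpow_mul a0.le,
        show 1 / 4 * η = η / 4 by ring] at k5
      linarith [mul_le_mul k1 k5 (by positivity) zero_le_two, mul_le_mul_of_nonneg_right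
        (Real.rpow_le_self_of_one_le one_le_two η2) r0.le]
  have k4 := Real.rpow_le_rpow_of_exponent_le p1 (show -(2 + t) ≤ -η + -(2 + η) by linarith)
  rw [Real.rpow_add p] at k4
  rw [abs_mul]
  calc _ ≤ |ω * f w - f v| * (|B| * (ν ^ (-η) * ν ^ (-(2 + η)))) := mul_le_mul_of_nonneg_left
        (h3.trans (mul_le_mul (le_abs_self B) k4 (by positivity) (abs_nonneg _))) (abs_nonneg _)
    _ = |ω * f w - f v| * ν ^ (-η) * (|B| * ν ^ (-(2 + η))) := by ring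
    _ ≤ _ := (mul_le_mul_of_nonneg_right k3 (by positivity)).trans_eq (by ring)

theorem alg {p x y Z c A γ γ₀ u v β n C : ℝ} {e e' : Prop} [Decidable e] [Decidable e'] (hA : 0 ≤ A)
    (he : e ↔ e') (k1 : |(p - v) * (γ - Z * γ₀)| ≤ β * |C| * n)
    (k2 : |(1 * u - v) * if e then c else 0| ≤ β * |c| * n) (k4 : |p * (x - A * γ)| ≤ β * (A * n))
    (k5 : |p * (y - A * γ₀)| ≤ β * (A * n)) :
    |p * x - Z * (p * y) - c * ((if e' then A else 0) * u) - v * A *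
      (γ - Z * γ₀ - if e then c else 0)| ≤ β * (1 + |Z| + |C| + |c|) * A * n := by
  have k6 := mul_le_mul_of_nonneg_left k1 hA
  have k7 := mul_le_mul_of_nonneg_left k2 hA
  have k8 := mul_le_mul_of_nonneg_left k5 (abs_nonneg Z)
  rw [← abs_mul] at k8
  rw [← abs_of_nonneg hA, ← abs_mul, abs_of_nonneg hA] at k6 k7
  rw [abs_le] at *
  simp only [← he] at *
  split_ifs at * <;> constructor <;> linarith [k4.1, k4.2, k8.1, k8.2, k6.1, k6.2, k7.1, k7.2]

theorem contact {μ μ₀ : ℝ → Measure Config} [∀ a, IsProbabilityMeasure (μ a)]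
    [∀ a, IsProbabilityMeasure (μ₀ a)] {U U' V V' : ℝ → ℂ → Config → ℝ} {b b' : ℝ → ℝ} {K : Set ℂ}
    {R θ Z C t : ℝ} {γ γ₀ : Site → ℝ} (hR : ∀ z ∈ K, ‖z‖ ≤ R) (R0 : 0 < R)
    (hU : ∀ a > 0, Ker (U a) (b a)) (hU' : ∀ a > 0, Ker (U' a) (b' a))
    (hV : ∀ a > 0, Ker (V a) (b a)) (hV' : ∀ a > 0, Ker (V' a) (b' a)) (h : LC μ U U' γ K)
    (h₀ : LC μ₀ V V' γ₀ K) (ht : 0 < t) (hd : ∀ u, |γ u - Z * γ₀ u| ≤ C * nz u ^ (-(2 + t)))
    (hθ : 0 < θ) (θ1 : θ ≤ 1 / 2) (L : ℕ) : ∃ κ > (0 : ℝ), ∀ᶠ a in 𝓝[>] (0 : ℝ), ∀ f f' W,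
      Tb K f → Tb K f' → (∀ v w, fl (a ^ θ) v = fl (a ^ θ) w →
        |f' w - f' v| ≤ a ^ (-(1 / 2) : ℝ) * ‖v - w‖) → (∀ u u', |W u u'| ≤ 1) → (∀ u, W u u = 1) →
          (∀ u u', W u u' ≠ 0 → zd u u' ≤ L) → |∫ σ, QQ (U a) (U' a) f f' (fl (a ^ θ)) W σ ∂μ a -
            Z * ∫ σ, QQ (V a) (V' a) f f' (fl (a ^ θ)) W σ ∂μ₀ a -
              (∑' u, (γ u - Z * γ₀ u)) * dh a f f'| ≤ a ^ κ := by
  obtain ⟨κ, hκ, h⟩ := h.le (half_pos hθ)
  obtain ⟨κ₀, hκ₀, h₀⟩ := h₀.le (half_pos hθ)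
  set η := min (min κ κ₀) (min (t / 2) 1) with hη
  have η0 : 0 < η := by positivity
  have η1 : η ≤ t / 2 ∧ η ≤ 1 := le_min_iff.1 (min_le_right _ _)
  set c := ∑' u, (γ u - Z * γ₀ u) with hc
  set C' := 1 + |Z| + |C| + |c| with hC'
  set S := ∑' u, nz u ^ (-(2 + η)) with hS
  have S0 : 0 ≤ S := tsum_nonneg fun u => (Real.rpow_pos_of_pos (nz_pos u) _).le
  have sd : Summable fun u => γ u - Z * γ₀ u := ((summable_nz ht).mul_left C).of_norm_bounded hd
  refine ⟨η / 8, by positivity, ?_⟩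
  filter_upwards [h η η0 ((min_le_left _ _).trans (min_le_left _ _)),
    h₀ η η0 ((min_le_left _ _).trans (min_le_right _ _)), Ioo_mem_nhdsGT one_pos,
    ev_le (2 * L + 2) (half_lt_self hθ), ev_le (C' * S * (4 * (bx ⌈R / 1⌉₊).card +
      2 * (8 * R * (2 * R + 5)))) (t := η / 4) (t' := η / 8) (by linarith)]
    with a h h₀ ⟨a0, a1⟩ e1 e2 f f' W hf hf' lip hW W1 hL
  have s0 := Real.rpow_pos_of_pos a0 θ
  have τ0 := Real.rpow_pos_of_pos a0 (3 / 4)
  have r0 := Real.rpow_pos_of_pos a0 (η / 4)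
  have r1 := Real.rpow_le_rpow_of_exponent_ge a0 a1.le (show η / 4 ≤ 1 / 4 by linarith)
  have r2 := Real.rpow_le_rpow_of_exponent_ge a0 a1.le (show η / 4 ≤ η by linarith)
  obtain ⟨N, mN, vN, hN⟩ := vol_nd R0 s0 (Real.rpow_le_one a0.le a1.le hθ.le) τ0.le
    (Real.rpow_le_one a0.le a1.le (by norm_num))
  have cv := fun {f} (h : Tb K f) z hz => mem_bx one_pos (hR z (h.2.2 z hz)) (Nat.le_ceil _)
  have m := hf.mi one_pos (cv hf)
  have m' := hf'.mi one_pos (cv hf')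
  obtain ⟨i1, i2, i3⟩ := int_QQ (μ a) (hU a a0) (hU' a a0) m m' (meas_fl (a ^ θ)) hW
  obtain ⟨i4, i5, i6⟩ := int_QQ (μ₀ a) (hV a a0) (hV' a a0) m m' (meas_fl (a ^ θ)) hW
  obtain ⟨i7, i8, i9⟩ := int_QQ (.dirac fun _ => true) ker_one ker_one m m' (meas_fl a)
    (W := fun u u' => if u = u' then (a ^ 2)⁻¹ else 0) (B := (a ^ 2)⁻¹)
    fun u u' => by split_ifs <;> simp [abs_of_nonneg, sq_nonneg]
  simp only [integral_dirac, mul_one] at i7 i8 i9
  have iN : Integrable (N.indicator fun _ => (2 : ℝ)) := (integrable_indicator_iff mN).2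
    (integrableOn_const (vN.trans_lt ENNReal.ofReal_lt_top).ne)
  rw [i3, i6, dh, i9, ← (int3 i2 i5 i8 Z c).2, ← Real.norm_eq_abs]
  refine (norm_integral_le_of_norm_le (((m.2.abs.const_mul (4 * a ^ (η / 4))).add iN).const_mul
    (C' * S)) (Eventually.of_forall fun v => ?_)).trans (le_trans ?_ e2)
  swap
  · simp only [Pi.add_apply]
    rw [integral_const_mul, integral_add (m.2.abs.const_mul _) iN, integral_const_mul,
      integral_indicator_const _ mN, mul_assoc (C' * S), smul_eq_mul]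
    refine mul_le_mul_of_nonneg_left ?_ (by positivity)
    have k1 := int_abs_le hf one_pos (cv hf)
    have k2 := ENNReal.toReal_le_of_le_ofReal (by positivity) vN
    have k3 : a ^ (3 / 4 : ℝ) / a ^ θ ≤ a ^ (η / 4) := by
      rw [← Real.rpow_sub a0]
      exact Real.rpow_le_rpow_of_exponent_ge a0 a1.le (by linarith)
    rw [Measure.real]
    nlinarith [mul_le_mul_of_nonneg_left k3 (by positivity : 0 ≤ 8 * R * (2 * R + 5))]
  set β := 4 * a ^ (η / 4) + N.indicator (fun _ => (2 : ℝ)) v with hβ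
  have n0 : 0 ≤ N.indicator (fun _ => (2 : ℝ)) v := Set.indicator_nonneg (fun _ _ => zero_le_two) v
  by_cases hv : f v = 0
  · simp only [hv, Pi.add_apply, zero_mul, mul_zero, sub_zero, norm_zero]
    positivity
  have l1 := int_lat a0 (sd.sub ((summable_of_ne_finset_zero (s := {0})
    (f := fun u : Site => if u = 0 then c else 0) fun u hu => if_neg (by simpa using hu))))
    (fl a v)
  have l2 := int_lat a0 (summable_nz η0) (fl a v)
  rw [sd.tsum_sub (summable_of_ne_finset_zero (s := {0}) fun u hu => if_neg (by simpa using hu)),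
    tsum_ite_eq, sub_self, mul_zero] at l1
  have key := deep a0 a1 η0 η1.1 η1.2 hf'.2.1 lip (v := v) (β := β) (by
    by_cases hn : v ∈ N
    · exact Or.inl (by rw [hβ, Set.indicator_of_mem hn]; linarith)
    · exact Or.inr ⟨by linarith, hN v hn (hR v (hf.2.2 v hv))⟩)
  have fin := norm_integral_le_of_norm_le (l2.1.const_mul (β * C' * (a ^ 2)⁻¹)) (f := fun w =>
    W (fl (a ^ θ) v) (fl (a ^ θ) w) * f' w * ∫ σ, U a v σ * U' a w σ ∂μ a -
      Z * (W (fl (a ^ θ) v) (fl (a ^ θ) w) * f' w * ∫ σ, V a v σ * V' a w σ ∂μ₀ a) -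
      c * ((if fl a v = fl a w then (a ^ 2)⁻¹ else 0) * f' w) - f' v * (a ^ 2)⁻¹ *
        (γ (fl a w - fl a v) - Z * γ₀ (fl a w - fl a v) - if fl a w - fl a v = 0 then c else 0))
    (Eventually.of_forall fun w => by
      have p := Real.rpow_pos_of_pos (nz_pos (fl a w - fl a v)) (-(2 + η))
      have k1 := key w _ _ _ (hW (fl (a ^ θ) v) (fl (a ^ θ) w)) (fun e => by rw [e, W1]) (hd _)
      have k2 := key w 1 (if fl a w - fl a v = 0 then c else 0) |c| abs_one.le (fun _ => rfl) (by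
        split_ifs with e
        exacts [by simp [e, nz, zd], by have := nz_pos (fl a w - fl a v); simp; positivity])
      rw [abs_abs] at k2
      have k3 : ∀ x : ℝ, (v ∈ K → w ∈ K → ‖v - w‖ ≤ a ^ (θ / 2) →
          |x| ≤ a ^ η * ((a ^ 2)⁻¹ * nz (fl a w - fl a v) ^ (-(2 + η)))) →
          |W (fl (a ^ θ) v) (fl (a ^ θ) w) * f' w * x| ≤
            β * ((a ^ 2)⁻¹ * nz (fl a w - fl a v) ^ (-(2 + η))) := fun x hx => by
        by_cases e : W (fl (a ^ θ) v) (fl (a ^ θ) w) * f' w = 0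
        · rw [e, zero_mul, abs_zero]
          positivity
        have a5 : (zd (fl (a ^ θ) v) (fl (a ^ θ) w) : ℝ) ≤ L := by
          exact_mod_cast hL _ _ (left_ne_zero_of_mul e)
        rw [abs_mul, abs_mul]
        refine (mul_le_of_le_one_left (abs_nonneg _) (mul_le_one₀ (hW _ _) (abs_nonneg _)
          (hf'.2.1 w))).trans ((hx (hf.2.2 v hv) (hf'.2.2 w (right_ne_zero_of_mul e)) (le_trans
            ((div_le_iff₀ s0).1 (by linarith [(P144DY.zd_fl s0 v w).2])) e1)).trans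
              (mul_le_mul_of_nonneg_right (by linarith) (by positivity)))
      exact alg (by positivity) (by rw [sub_eq_zero, eq_comm]) k1 k2 (k3 _ (h v · w))
        (k3 _ (h₀ v · w)))
  rw [integral_sub (int3 (i1 v) (i4 v) (i7 v) Z c).1 (l1.1.const_mul _),
    (int3 (i1 v) (i4 v) (i7 v) Z c).2] at fin
  simp only [integral_const_mul, l1.2, l2.2, mul_zero, sub_zero,
    inv_mul_cancel_right₀ (pow_pos a0 2).ne', ← mul_assoc] at fin
  simp only [Pi.add_apply]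
  rw [mul_left_comm Z, mul_left_comm c, ← mul_sub, ← mul_sub, norm_mul, Real.norm_eq_abs]
  refine (mul_le_mul_of_nonneg_left fin (abs_nonneg _)).trans ?_
  have := mul_le_of_le_one_left n0 (hf.2.1 v)
  calc _ = C' * S * (4 * a ^ (η / 4) * |f v| + |f v| * N.indicator (fun _ => (2 : ℝ)) v) := by ring
    _ ≤ _ := by gcongr

end Vale.Agent.P144DR
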