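import Vale.Agent.P144DD.Defs

/-!
The mixed correlations with contact terms.
-/

namespace Vale.Agent.P144DR

open Filter Topology MeasureTheory Vale.Agent.P144 Vale.Agent.P144DD Finset

/-- The lattice delta function. -/
noncomputable def dl (a : ℝ) (y y' : ℂ) : ℝ := if fl a y = fl a y' then (a ^ 2)⁻¹ else 0

/-- The points of `p` with the energies in `T` only. -/
def sub (p : Pts) (T : Finset (Fin p.m)) : Pts :=
  ⟨p.n, T.card, p.x, p.y ∘ T.orderEmbOfFin rfl, p.j ∘ T.orderEmbOfFin rfl⟩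

/-- The sets of disjoint pairs in `T`. -/
def mat {m : ℕ} (T : Finset (Fin m)) : Finset (Finset (Fin m × Fin m)) :=
  ((T ×ˢ T).filter fun e => e.1 < e.2).powerset.filter fun P =>
    ∀ e ∈ P, ∀ e' ∈ P, e ≠ e' → Disjoint ({e.1, e.2} : Finset (Fin m)) {e'.1, e'.2}

/-- The subtraction of the pair terms `w` from the set function `c`. -/
noncomputable def Ex {m : ℕ} (w : Fin m × Fin m → ℝ) (c : Finset (Fin m) → ℝ)
    (T : Finset (Fin m)) : ℝ :=
  ∑ P ∈ mat T, (∏ e ∈ P, -w e) * c (T \ P.biUnion fun e => {e.1, e.2})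

/-- The mixed correlation with the contact terms `κ` of the pairs of energies subtracted. -/
noncomputable def ren (a : ℝ) (E : (Config → ℝ) → ℝ) (κ : Fin 2 → Fin 2 → ℝ) (p : Pts) : ℝ :=
  Ex (fun e => κ (p.j e.1) (p.j e.2) * dl a (p.y e.1) (p.y e.2)) (fun T => corr a E (sub p T)) univ

/-- Test functions: smooth, with compact support in `D ^ (n + m)`. -/
def TestS (D : Set ℂ) {n m : ℕ} (F : Pos n m → ℝ) : Prop :=
  ContDiff ℝ (⊤ : ℕ∞) F ∧ HasCompactSupport F ∧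
    tsupport F ⊆ {z | (∀ i, z.1 i ∈ D) ∧ ∀ k, z.2 k ∈ D}

/-- The difference of the smeared renormalised correlations tends to zero. -/
def RenDiff (D : Set ℂ) (E₀ E : Fam) (κ₀ κ : ℝ → Fin 2 → Fin 2 → ℝ) (Zσ Zε : ℝ) : Prop :=
  ∀ (n m : ℕ) (j : Fin m → Fin 2) (F : Pos n m → ℝ), TestS D F →
    Tendsto (fun a => (∫ z, F z * ren a (E a) (κ a) (pts j z)) -
      Zσ ^ n * Zε ^ m * ∫ z, F z * ren a (E₀ a) (κ₀ a) (pts j z)) (𝓝[>] 0) (𝓝 0)

/-- The smeared renormalised correlations converge to `T`, up to the two constants. -/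
def RenLim (D : Set ℂ) (E : Fam) (κ : ℝ → Fin 2 → Fin 2 → ℝ) (Zσ Zε : ℝ)
    (T : ∀ n m : ℕ, (Pos n m → ℝ) → ℝ) : Prop :=
  ∀ (n m : ℕ) (j : Fin m → Fin 2) (F : Pos n m → ℝ), TestS D F →
    Tendsto (fun a => ∫ z, F z * ren a (E a) (κ a) (pts j z)) (𝓝[>] 0)
      (𝓝 (Zσ ^ n * Zε ^ m * T n m F))

/-- `T` extends the correlation function `C` across the diagonals of the energies. -/
def Extends (D : Set ℂ) (C : Pts → ℝ) (T : ∀ n m : ℕ, (Pos n m → ℝ) → ℝ) : Prop :=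
  ∀ (n m : ℕ) (j : Fin m → Fin 2) (F : Pos n m → ℝ), TestM D F →
    T n m F = ∫ z, F z * C (pts j z)

end Vale.Agent.P144DR
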