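import Vale.Agent.P144DR.Defs

/-!
Distributions of order one; the contact terms of the nearest-neighbour model.
-/

namespace Vale.Agent.P144DR

open MeasureTheory Vale.Agent.P144 Vale.Agent.P144DD Finset

/-- Each `T n m` is a distribution of order at most one on `D ^ (n + m)`. -/
def IsDist (D : Set ℂ) (T : ∀ n m : ℕ, (Pos n m → ℝ) → ℝ) : Prop :=
  ∀ n m : ℕ, (∀ (F G : Pos n m → ℝ) (c : ℝ), TestS D F → TestS D G →
      T n m (F + c • G) = T n m F + c * T n m G) ∧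
    ∀ K ⊆ D, IsCompact K → ∃ B : ℝ, ∀ (F : Pos n m → ℝ), ∀ L > (0 : ℝ), TestS D F →
      (∀ z, F z ≠ 0 → (∀ i, z.1 i ∈ K) ∧ ∀ k, z.2 k ∈ K) → (∀ z, |F z| ≤ L) →
        (∀ z w, |F z - F w| ≤ L * ‖z - w‖) → |T n m F| ≤ B * L

/-- The sum of the lattice two-point function of the energy over a box of size `1 / a`. -/
noncomputable def kz (μ : Measure Config) (a : ℝ) (j j' : Fin 2) : ℝ :=
  ∑ v ∈ Icc (-⌊a⁻¹⌋₊ : ℤ) ⌊a⁻¹⌋₊ ×ˢ Icc (-⌊a⁻¹⌋₊ : ℤ) ⌊a⁻¹⌋₊,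
    corr 1 (fun F => ∫ σ, F σ ∂μ) ⟨0, 2, ![], ![0, ⟨v.1, v.2⟩], ![j, j']⟩

end Vale.Agent.P144DR
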