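import Vale.Agent.P144DR.Mo

/-!
From the pointwise bounds to the difference of the renormalised distributions.
-/

namespace Vale.Agent.P144DR

open Filter Topology MeasureTheory Vale.Agent.P144 Vale.Agent.P144Z Vale.Agent.P144F
open Vale.Agent.P144DD Finset

section

variable {ι : Type*} [Fintype ι] {W : (ι → ℂ) → ℝ} {M : ℝ}

theorem cx2 {P : (ℂ → ℝ) → Prop} (h : ∀ f : ι → ℂ → ℝ, (∀ i, Measurable (f i)) →
    (∀ i z, |f i z| ≤ 1) → (∀ i, P (f i)) → |∫ z, (∏ i, f i (z i)) * W z| ≤ M) (hW : Integrable W)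
    {g : ι → ℂ → ℂ} (hm : ∀ i, Measurable (g i)) (hb : ∀ i z, ‖g i z‖ ≤ 1)
    (hP : ∀ i, (P fun z => (g i z).re) ∧ P fun z => (g i z).im) :
    ‖∫ z, (∏ i, g i (z i)) * W z‖ ≤ 2 ^ Fintype.card ι * M := by
  classical
  set r : ι → Bool → ℂ → ℝ := fun i t z => if t then (g i z).re else (g i z).im with hr
  set c : Bool → ℂ := fun t => if t then 1 else Complex.I with hc
  have r1 : ∀ i t, Measurable (r i t) ∧ (∀ z, |r i t z| ≤ 1) ∧ P (r i t) := fun i t => by
    cases t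
    exacts [⟨Complex.measurable_im.comp (hm i), fun z => (Complex.abs_im_le_norm _).trans (hb i z),
      (hP i).2⟩, ⟨Complex.measurable_re.comp (hm i),
        fun z => (Complex.abs_re_le_norm _).trans (hb i z), (hP i).1⟩]
  have e : ∀ z : ι → ℂ, (∏ i, g i (z i)) * W z =
      ∑ τ : ι → Bool, (∏ i, c (τ i)) * ((∏ i, (r i (τ i) (z i) : ℂ)) * W z) := fun z => by
    have : ∀ i, g i (z i) = ∑ t, c t * r i t (z i) := fun i => by
      simp [hr, hc, mul_comm Complex.I]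
    simp only [this, prod_univ_sum, Fintype.piFinset_univ, prod_mul_distrib, sum_mul, mul_assoc]
  simp only [e]
  rw [integral_finsetSum _ fun τ _ => (int_cx hW (g := fun i z => r i (τ i) z)
    (fun i => Complex.measurable_ofReal.comp (r1 i _).1)
      fun i z => by simpa using (r1 i _).2.1 z).const_mul _]
  refine (norm_sum_le _ _).trans ((sum_le_card_nsmul _ _ M fun τ _ => ?_).trans_eq (by simp))
  have c1 : ∀ t, ‖c t‖ = 1 := fun t => by cases t <;> simp [hc]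
  rw [integral_const_mul, norm_mul, norm_prod]
  simp only [c1, prod_const_one, one_mul, ← Complex.ofReal_prod, ← Complex.ofReal_mul]
  rw [integral_complex_ofReal, Complex.norm_real]
  exact h _ (fun i => (r1 i _).1) (fun i => (r1 i _).2.1) fun i => (r1 i _).2.2

theorem four2 {F : (ι → ℂ) → ℝ} (hF : ContDiff ℝ (⊤ : ℕ∞) F) (hc : HasCompactSupport F) :
    ∃ C, ∀ W M M' Λ, Integrable W → 0 < Λ → (∀ f : ι → ℂ → ℝ, (∀ i, Measurable (f i)) →
      (∀ i z, |f i z| ≤ 1) → (∀ i v w, |f i w - f i v| ≤ Λ * ‖v - w‖) →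
        |∫ z, (∏ i, f i (z i)) * W z| ≤ M) → 0 ≤ M → PN W M' → 0 ≤ M' →
          |∫ z, F z * W z| ≤ C * (M + M' / Λ) := by
  obtain ⟨G, g1, g2, g3⟩ := four hF hc
  have iG : Integrable G := g2.mono' g1.aestronglyMeasurable (Eventually.of_forall fun ξ =>
    le_mul_of_one_le_left (norm_nonneg _) (le_add_of_nonneg_right (norm_nonneg _)))
  have c1 : Continuous fun p : (ι → ℂ) × PiLp 2 fun _ : ι => ℂ => ∏ i, ex (p.2 i) (p.1 i) :=
    continuous_finsetProd _ fun i _ => cont_ex.comp (f := fun p : (ι → ℂ) ×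
      PiLp 2 fun _ : ι => ℂ => (p.2 i, p.1 i)) (by fun_prop)
  have me : ∀ u, Measurable (ex u) := fun u =>
    (cont_ex.comp (Continuous.prodMk_right u)).measurable
  refine ⟨(∫ ξ, (1 + ‖ξ‖) * ‖G ξ‖) * (8 * 2 ^ Fintype.card ι), fun W M M' Λ hW hΛ h M0 h' M1 => ?_⟩
  rw [mul_assoc]
  refine sup_le (k := fun z ξ => ∏ i, ex (ξ i) (z i)) iG g2 hW c1.measurable
    (fun z ξ => by simp [norm_ex]) g3 fun ξ => ?_
  have p : (0 : ℝ) < 2 ^ Fintype.card ι := by positivity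
  have p1 := mul_nonneg p.le M0
  have p2 := mul_nonneg p.le (div_nonneg M1 hΛ.le)
  rcases le_total (8 * ‖ξ‖) Λ with e | e
  · have k : ∀ i v w, ‖ex (ξ i) w - ex (ξ i) v‖ ≤ Λ * ‖v - w‖ := fun i v w => by
      rw [norm_sub_rev]
      exact (ex_sub _ _ _).trans (mul_le_mul_of_nonneg_right
        (by linarith [PiLp.norm_apply_le ξ i]) (norm_nonneg _))
    refine (cx2 (P := fun f => ∀ v w, |f w - f v| ≤ Λ * ‖v - w‖) h hW (fun i => me _)
      (fun i z => (norm_ex _ _).le) fun i =>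
        ⟨fun v w => (Complex.abs_re_le_norm (_ - _)).trans (k i v w),
          fun v w => (Complex.abs_im_le_norm (_ - _)).trans (k i v w)⟩).trans ?_
    nlinarith [norm_nonneg ξ]
  · refine (h'.cx hW (fun i => me _) fun i z => (norm_ex _ _).le).trans ?_
    have := mul_le_mul_of_nonneg_left e p2
    rw [mul_assoc, div_mul_cancel₀ _ hΛ.ne'] at this
    nlinarith [norm_nonneg ξ]

end

section

variable {D K : Set ℂ} {E : Fam} {μ : ℝ → Measure Config} [∀ a, IsProbabilityMeasure (μ a)] {s : ℝ}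

theorem CVM.cv (h : CVM D E) (r : Rep E μ) (s0 : 0 < s)
    (hI : ∀ p : Pts, (∀ i, Sum.elim p.x p.y i ∈ K) → Ins D s p) (d d' : Fin 2) :
    CV μ (fun a => En (μ a) d a) (fun a => En (μ a) d' a) K := fun θ hθ k => by
  obtain ⟨κ, hκ, h⟩ := h θ hθ k s s0
  refine ⟨κ, hκ, ?_⟩
  filter_upwards [h, self_mem_nhdsWithin] with a h ha t ht v hv w hw v' hv' w' hw' h1 h2 h3 h4 h5
  have := h t ht ![v, w, v', w'] ![d, d', d, d'] (hI _ (by
    rintro (i | i)
    exacts [i.elim0, by fin_cases i <;> assumption])) h1 h2 h3 h4 h5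
  have b := fun d v => bm_ker (ker_En (μ a) d ha) v
  rw [cov_eq ((b _ _).mul (b _ _)) ((b _ _).mul (b _ _))]
  rw [corr_G2 (r a ha), corr_G2 (r a ha)] at this
  simpa [corr_kc (r a ha), kc, kern, ens, G2, Fin.prod_univ_four, mul_assoc] using this

omit [∀ a, IsProbabilityMeasure (μ a)] in
theorem LOC.lc {ν : Measure Config} (h : LOC D E (famOf ν)) (i : Inv ν) (r : Rep E μ) (s0 : 0 < s)
    (hI : ∀ p : Pts, (∀ i, Sum.elim p.x p.y i ∈ K) → Ins D s p) (d d' : Fin 2) :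
    LC μ (fun a => En (μ a) d a) (fun a => En (μ a) d' a) (g2 ν d d') K := fun θ hθ => by
  obtain ⟨κ, hκ, h⟩ := h θ hθ s s0
  refine ⟨κ, hκ, ?_⟩
  filter_upwards [h, self_mem_nhdsWithin] with a h ha v hv w hw h1
  have := h ![v, w] ![d, d'] (hI _ (by
    rintro (i | i)
    exacts [i.elim0, by fin_cases i <;> assumption])) h1
  rwa [corr_G2 (r a ha), corr_G2 (E := famOf ν a) (μ := ν) fun _ => rfl, G2_eq i] at this

end

theorem Sm.anti {X : Type*} {A A' : ℝ → X → Prop} {u : ℝ → X → ℝ} (h : Sm A u)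
    (h' : ∀ a x, A' a x → A a x) : Sm A' u :=
  h.imp fun _ h => ⟨h.1, h.2.mono fun a h x hx => h x (h' a x hx)⟩

theorem Bd.anti {X : Type*} {A A' : ℝ → X → Prop} {u : ℝ → X → ℝ} (h : Bd A u)
    (h' : ∀ a x, A' a x → A a x) : Bd A' u := fun η hη => (h η hη).mono fun a h x hx => h x (h' a x hx)

theorem abs_dh {K : Set ℂ} {R a : ℝ} (hR : ∀ z ∈ K, ‖z‖ ≤ R) (ha : 0 < a) {f f' : ℂ → ℝ} (h : Tb K f)
    (h' : Tb K f') : |dh a f f'| ≤ |(bx ⌈R / 1⌉₊).card * (1 : ℝ) ^ 2| := by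
  have cv := fun z hz => mem_bx one_pos (hR z (h.2.2 z hz)) (Nat.le_ceil _)
  rw [dh, QQ, fd, ← Real.norm_eq_abs]
  refine le_trans (norm_integral_le_of_norm_le (h.mi one_pos cv).2.abs (Eventually.of_forall
    fun v => ?_)) ((int_abs_le h one_pos cv).trans (le_abs_self _))
  have l := int_lat ha (H := fun u => if u = 0 then (a ^ 2)⁻¹ else 0)
    (summable_of_ne_finset_zero (s := {0}) fun u hu => if_neg (by simpa using hu)) (fl a v)
  rw [tsum_ite_eq, mul_inv_cancel₀ (pow_pos ha 2).ne'] at l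
  rw [norm_mul, one_mul]
  refine mul_le_of_le_one_right (norm_nonneg _) ((norm_integral_le_of_norm_le l.1
    (Eventually.of_forall fun w => ?_)).trans_eq l.2)
  simp only [sub_eq_zero, eq_comm (a := fl a w), mul_one, norm_mul]
  refine (mul_le_of_le_one_right (norm_nonneg _) (h'.2.1 w)).trans_eq ?_
  split_ifs <;> simp

theorem blkH2 : BlkH2 := by
  rintro ν₀ ν Zσ Zε i₀ i hM₀ hU₀
  obtain ⟨t, ht, hd⟩ := d_le i₀ i hU₀
  refine ⟨fun d d' => ∑' w, (g2 ν d d' w - Zε ^ 2 * g2 ν₀ d d' w), ?_⟩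
  rintro D E₀ E ho ⟨μ₀, _, r0⟩ ⟨μ, _, r1⟩ hU hZ hM c0 c1 l0 l1 n m j F hF
  set κ := fun a d d' => Zε ^ 2 * k0 ν₀ a d d' + ∑' w, (g2 ν d d' w - Zε ^ 2 * g2 ν₀ d d' w) with hκ
  set K₀ := ⋃ i, (fun z => (sP n m).symm z i) '' tsupport F with hK₀
  have k1 : IsCompact K₀ := isCompact_iUnion fun i => IsCompact.image hF.2.1 (by fun_prop)
  obtain ⟨δ, δ0, hK⟩ := k1.exists_cthickening_subset_open ho (Set.iUnion_subset fun i => by
    rintro _ ⟨z, hz, rfl⟩
    cases i
    exacts [(hF.2.2 hz).1 _, (hF.2.2 hz).2 _])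
  have hc := k1.cthickening (r := δ)
  set K := Metric.cthickening δ K₀ with hKe
  obtain ⟨s₀, s0, hI⟩ := exists_ins ho hK hc
  obtain ⟨R, hR'⟩ := hc.isBounded.exists_norm_le
  have hR : ∀ z ∈ K, ‖z‖ ≤ max R 2 := fun z hz => le_max_of_le_left (hR' z hz)
  have R2 := le_max_right R 2
  choose τ τ0 hU using fun T : Finset (Fin m) => hU n T.card s₀ s0
  set θ := min (1 / 2) (univ.inf' univ_nonempty τ) with hθ
  have θ0 : 0 < θ := lt_min one_half_pos ((lt_inf'_iff _).2 fun T _ => τ0 T)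
  set k := Fintype.card (Fin n ⊕ Fin m) + 1 with hk
  have kp : 0 < k := Nat.succ_pos _
  choose c₀ e1 e2 using fun r : Fin n ⊕ Fin m → Site => exists_free r
  set u := fun a (h : Fin n ⊕ Fin m → ℂ → ℝ) =>
    (∫ z, (∏ i, h i (z i)) * ren a (E a) (κ a) (pts j (sP n m z))) - Zσ ^ n * Zε ^ m *
      ∫ z, (∏ i, h i (z i)) * ren a (E₀ a) (k0 ν₀ a) (pts j (sP n m z)) with hu
  have core : ∀ r, Bd (A0 K k θ r) u ∧ Sm (fun a h => A0 K k θ r a h ∧ ∀ i v w,
      fl (a ^ θ) v = fl (a ^ θ) w → |h i w - h i v| ≤ a ^ (-(1 / 2) : ℝ) * ‖v - w‖) u := by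
    intro r
    obtain ⟨a1, a2, a3⟩ := model (r := r) (c₀ := c₀ r) hR R2 θ0 kp
      (hZ.mk r1 ho hK hc j) (c1.cv r1 s0 hI)
    obtain ⟨b1, b2, b3⟩ := model (r := r) (c₀ := c₀ r) hR R2 θ0 kp
      (hM.zbm.mk r0 ho hK hc j) (c0.cv r0 s0 hI)
    have bd : ∀ e : Fin m × Fin m, Bd (A0 K k θ r) fun a h => dh a (h (.inr e.1)) (h (.inr e.2)) :=
      fun e => (Bd.const _).mono (Eventually.of_forall fun a h hx =>
        abs_dh hR hx.1 (hx.2 _).1 (hx.2 _).1)
    have bk := fun e : Fin m × Fin m => (bd_k0 i₀ hM₀ (j e.1) (j e.2)).mul (bd e)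
    have eu := fun a h (hx : A0 K k θ r a h) => congrArg₂ (· - Zσ ^ n * Zε ^ m * ·)
      (int_ren (r1 a hx.1) hx.1 (κ a) j hR fun i => (hx.2 i).1).2
      (int_ren (r0 a hx.1) hx.1 (k0 ν₀ a) j hR fun i => (hx.2 i).1).2
    refine ⟨((Bd.ex (fun e => (((Bd.const _).mul (bd_k0 i₀ hM₀ _ _)).add (Bd.const _)).mul (bd e))
      a2 univ).sub ((Bd.const _).mul (Bd.ex bk b2 univ))).congr (Eventually.of_forall eu), ?_⟩
    refine (Sm.ex (w := fun e a h => κ a (j e.1) (j e.2) * dh a (h (.inr e.1)) (h (.inr e.2)) -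
      ∫ σ, Qe (μ a) j a k (c₀ r) (a ^ θ) h e σ ∂μ a) (fun e => ?_)
      (fun e => ((Bd.const (Zε ^ 2)).mul ((bk e).sub (b1 e))).anti fun _ _ h => h.1)
      (c' := fun T a h => Zσ ^ n * Zε ^ T.card * Ex (fun e => ∫ σ, Qe (μ₀ a) j a k (c₀ r) (a ^ θ) h e σ
        ∂μ₀ a) (Mo (μ₀ a) j a h) T) (fun T => Sm.anti ?_ fun _ _ h => h.1)
      (fun T => (Bd.ex a1 a2 T).anti fun _ _ h => h.1) univ).congr
      (Eventually.of_forall fun a h hx => (eu a h hx.1).trans ?_)
    · obtain ⟨C, hd⟩ := hd (j e.1) (j e.2)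
      obtain ⟨η, η0, h⟩ := contact hR (by linarith) (fun a ha => ker_En (μ a) (j e.1) ha)
        (fun a ha => ker_En (μ a) (j e.2) ha) (fun a ha => ker_En (μ₀ a) (j e.1) ha)
        (fun a ha => ker_En (μ₀ a) (j e.2) ha) (l1.lc i r1 s0 hI _ _) (l0.lc i₀ r0 s0 hI _ _) ht hd θ0
        (min_le_left _ _) k
      refine ⟨η, η0, h.mono fun a h f hx => le_of_eq_of_le ?_ (h _ _
        (fun u u' => if cg k (c₀ r) u = cg k (c₀ r) u' then 1 else 0) (hx.1.2 (.inr e.1)).1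
        (hx.1.2 (.inr e.2)).1 (hx.2 _) (fun u u' => by split_ifs <;> simp) (fun u => if_pos rfl)
        fun u u' e => cg_zd kp (by_contra fun e' => e (if_neg e')))⟩
      rw [← abs_neg]
      simp only [hκ, Qe]
      congr 1
      ring
    · refine (((cmp (μ := μ) (μ₀ := μ₀) (j := j) (θ := θ) hR R2 (e1 r) (e2 r)
        (Z := Zσ ^ n * Zε ^ T.card) (τ0 T) ?_).sub (a3 T)).add ((Bd.const
          (Zσ ^ n * Zε ^ T.card)).mul_sm (b3 T))).congr (Eventually.of_forall fun a h _ => by ring)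
      filter_upwards [hU T, Ioo_mem_nhdsGT one_pos] with a h ha z z1 z2
      have e : ∀ i, Sum.elim (sub (pts j (sP n m z)) T).x (sub (pts j (sP n m z)) T).y i =
          z (Sum.map id (T.orderEmbOfFin rfl) i) := by rintro (i | i) <;> rfl
      have e' : ∀ (i : Fin n ⊕ Fin T.card) l, Sum.map id (T.orderEmbOfFin rfl) i = .inr l → l ∈ T := by
        rintro (i | i) l h <;> cases h
        exact orderEmbOfFin_mem _ _ _
      have := h (sub (pts j (sP n m z)) T) rfl rfl (hI _ fun i => e i ▸ z1 _ (e' i)) fun i i' hi => by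
        rw [e, e]
        exact (Real.rpow_le_rpow_of_exponent_ge ha.1 ha.2.le ((min_le_right _ _).trans
          (inf'_le _ (mem_univ T)))).trans (z2 _ _ (fun h => hi ((Function.injective_id.sumMap
            (T.orderEmbOfFin rfl).injective) h)) (e' i) (e' i'))
      rwa [corr_sub (r1 a ha.1), corr_sub (r0 a ha.1)] at this
    · rw [Ex_scale, ← Ex_add, ← Ex_add, card_fin]
      simp only [Pi.add_def, sub_add_cancel]
  obtain ⟨C, hC⟩ := four2 (F := fun w => F (sP n m w)) (hF.1.comp (sP n m).contDiff)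
    (hF.2.1.comp_homeomorph (sP n m).toHomeomorph)
  set χ := fun a r => P144DD.chi (fl (a ^ θ) ⁻¹' (fl (a ^ θ) '' K₀)) k (a ^ θ) r with hχ
  have ev : ∀ᶠ a in 𝓝[>] (0 : ℝ), ∀ (r : Fin n ⊕ Fin m → Site) (f : Fin n ⊕ Fin m → ℂ → ℝ),
      (∀ i, Measurable (f i)) → (∀ i z, |f i z| ≤ 1) →
        A0 K k θ r a fun i v => χ a (r i) v * f i v := by
    filter_upwards [(tendsto_rp θ0).eventually (ge_mem_nhds (half_pos δ0)), self_mem_nhdsWithin]
      with a h ha r f f1 f2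
    refine ⟨ha, fun i => ⟨⟨(meas_chi (meas_fl _ MeasurableSet.of_discrete) _).mul (f1 i), fun z =>
      (abs_mul _ _).trans_le (mul_le_one₀ (abs_chi _ _) (abs_nonneg _) (f2 i z)), fun z hz => ?_⟩,
      fun v hv => (chi_ne (left_ne_zero_of_mul hv)).2⟩⟩
    obtain ⟨w, w1, w2⟩ := (chi_ne (left_ne_zero_of_mul hz)).1
    exact Metric.mem_cthickening_of_dist_le z w δ K₀ w1 ((dist_eq_norm z w).trans_le
      ((cell_near (Real.rpow_pos_of_pos ha θ) w2.symm).trans (by linarith)))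
  set W := fun a (r : Fin n ⊕ Fin m → Site) (z : Fin n ⊕ Fin m → ℂ) =>
    (∏ i, χ a (r i) (z i)) * ren a (E a) (κ a) (pts j (sP n m z)) - Zσ ^ n * Zε ^ m *
      ((∏ i, χ a (r i) (z i)) * ren a (E₀ a) (k0 ν₀ a) (pts j (sP n m z))) with hW
  have iv := fun a (r : Fin n ⊕ Fin m → Site) h (hx : A0 K k θ r a h) => And.intro
    (int_ren (r1 a hx.1) hx.1 (κ a) j hR fun i => (hx.2 i).1).1
    (int_ren (r0 a hx.1) hx.1 (k0 ν₀ a) j hR fun i => (hx.2 i).1).1
  have lim : ∀ r, Tendsto (fun a => ∫ z, F (sP n m z) * W a r z) (𝓝[>] 0) (𝓝 0) := by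
    intro r
    obtain ⟨b, η, η0, h⟩ := core r
    refine squeeze_zero_norm' ?_ (by
      simpa using ((tendsto_rp η0).add (tendsto_rp (t := 1 / 4) (by norm_num))).const_mul C)
    filter_upwards [h, b (1 / 4) (by norm_num), ev, self_mem_nhdsWithin] with a h b ev ha
    have e : ∀ f : Fin n ⊕ Fin m → ℂ → ℝ, (∀ i, Measurable (f i)) → (∀ i z, |f i z| ≤ 1) →
        ∫ z, (∏ i, f i (z i)) * W a r z = u a fun i v => χ a (r i) v * f i v := fun f f1 f2 => by
      simp only [hu]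
      rw [← integral_const_mul, ← integral_sub (iv a r _ (ev r f f1 f2)).1
        ((iv a r _ (ev r f f1 f2)).2.const_mul _)]
      simp only [hW, prod_mul_distrib]
      exact integral_congr_ae (Eventually.of_forall fun z => by ring)
    have i1 := iv a r _ (ev r 1 (fun _ => measurable_const) (by simp))
    simp only [Pi.one_apply, mul_one] at i1
    refine (hC _ _ _ _ (i1.1.sub (i1.2.const_mul _)) (Real.rpow_pos_of_pos ha (-(1 / 2)))
      (fun f f1 f2 f3 => (e f f1 f2).symm ▸ h _ ⟨ev r f f1 f2, fun i v w e => ?_⟩)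
      (Real.rpow_nonneg (le_of_lt ha) _) (fun f f1 f2 => (e f f1 f2).symm ▸ b _ (ev r f f1 f2))
      (Real.rpow_nonneg (le_of_lt ha) _)).trans_eq ?_
    · rw [← Real.rpow_sub ha]
      norm_num
    · rw [show χ a (r i) w = χ a (r i) v by
        classical simp only [hχ, P144DD.chi, Set.mem_preimage, e], ← mul_sub, abs_mul]
      exact (mul_le_of_le_one_left (abs_nonneg _) (abs_chi _ _)).trans (f3 i v w)
  have := tendsto_finsetSum (Fintype.piFinset fun _ : Fin n ⊕ Fin m =>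
    Ico (0 : ℤ) k ×ˢ Ico (0 : ℤ) k) fun r _ => lim r
  rw [sum_const_zero] at this
  refine this.congr' (ev.mono fun a ev => ?_)
  obtain ⟨B, hB⟩ := hF.1.continuous.bounded_above_of_compact_support hF.2.1
  have i1 := fun r => iv a r _ (ev r 1 (fun _ => measurable_const) (by simp))
  simp only [Pi.one_apply, mul_one] at i1
  have mF : AEStronglyMeasurable (fun z => F (sP n m z)) volume :=
    (hF.1.continuous.comp (sP n m).continuous).aestronglyMeasurable
  have i2 := fun r => (i1 r).1.bdd_mul mF (Eventually.of_forall fun _ => hB _)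
  have i3 := fun r => (i1 r).2.bdd_mul mF (Eventually.of_forall fun _ => hB _)
  have key : ∀ (G : (Fin n ⊕ Fin m → ℂ) → ℝ) z, F (sP n m z) * G z = ∑ r ∈ Fintype.piFinset
      fun _ : Fin n ⊕ Fin m => Ico (0 : ℤ) k ×ˢ Ico (0 : ℤ) k,
        F (sP n m z) * ((∏ i, χ a (r i) (z i)) * G z) := fun G z => by
    by_cases hz : F (sP n m z) = 0
    · simp [hz]
    rw [← mul_sum, ← sum_mul, ← prod_univ_sum _ fun i c => χ a c (z i), prod_eq_one, one_mul]
    intro i _
    have k0 : (0 : ℤ) < k := by omega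
    have : z i ∈ fl (a ^ θ) ⁻¹' (fl (a ^ θ) '' K₀) := Set.mem_image_of_mem _
      (Set.mem_iUnion.2 ⟨i, _, subset_tsupport _ hz, by simp⟩)
    simp only [hχ, P144DD.chi, this, true_and]
    rw [sum_eq_single_of_mem (col k (fl (a ^ θ) (z i))) (mem_product.2 ⟨mem_Ico.2 ⟨Int.emod_nonneg _
      k0.ne', Int.emod_lt_of_pos _ k0⟩, mem_Ico.2 ⟨Int.emod_nonneg _ k0.ne',
        Int.emod_lt_of_pos _ k0⟩⟩) fun c _ hc => if_neg hc.symm, if_pos rfl]
  simp only [int_sP]
  rw [funext (key fun z => ren a (E a) (κ a) (pts j (sP n m z))),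
    funext (key fun z => ren a (E₀ a) (k0 ν₀ a) (pts j (sP n m z))),
    integral_finsetSum _ fun r _ => i2 r, integral_finsetSum _ fun r _ => i3 r, mul_sum,
    ← sum_sub_distrib]
  refine sum_congr rfl fun r _ => ?_
  rw [← integral_const_mul, ← integral_sub (i2 r) ((i3 r).const_mul _)]
  exact integral_congr_ae (Eventually.of_forall fun z => by simp only [hW]; ring)

end Vale.Agent.P144DR
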