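import Vale.Agent.P144DA.Rate
import Vale.Agent.P144DX.Lat
import Vale.Agent.P144DX.VOff
import Vale.Agent.P144DC.Main
import Vale.Agent.P144DI.Main
import Vale.Agent.P144DI.I2
import Vale.Agent.P144DZ.Plane
import Vale.Agent.P144DU.Main
import Vale.Agent.P144DV.Main
import Vale.Agent.P144DR.CW
import Vale.Agent.P144DR.H2
import Vale.Agent.P144DR.Dst

/-!
The limits are distributions; the final assembly.
-/

namespace Vale.Agent.P144DR

section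

open Filter Topology MeasureTheory Finset Vale.Agent.P144 Vale.Agent.P144F Vale.Agent.P144DD
  Vale.Agent.P144DI Vale.Agent.P144Z

variable {n m : ℕ} {μ : Measure Config} {D K : Set ℂ} {E : Fam} {P : Finset (Fin m × Fin m)}

theorem Ya_lin (h : Inv μ) (ho : IsOpen D) (hK : K ⊆ D) (hc : IsCompact K) (hM : Maj D E)
    (hM' : Maj Set.univ (famOf μ)) (hW : MajW D E (famOf μ)) (hP : P ∈ mat univ)
    (j : Fin m → Fin 2) : ∃ G, Integrable G ∧ ∀ᶠ a in 𝓝[>] (0 : ℝ),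
      ∀ (F : (Fin n ⊕ Fin m → ℂ) → ℝ), ∀ L > (0 : ℝ), (∀ w, F w ≠ 0 → ∀ i, w i ∈ K) →
        (∀ w, |F w| ≤ L) → (∀ w w', |F w - F w'| ≤ L * ‖w - w'‖) → ∀ w, Function.Injective w →
          ‖Ya μ E j F P a w‖ ≤ L * G w := by
  obtain ⟨q1, q2⟩ := mem_mat.1 hP
  obtain ⟨R, R0, hR⟩ := hc.isBounded.exists_pos_norm_le
  have R1 : (0 : ℝ) < R + 2 * P.card + 1 := by positivity
  obtain ⟨H, f1, hH⟩ := wk_dom ho hK hc hM hM' hW R1 n (univ \ su P)
  obtain ⟨B, B0, hB⟩ := pr_bd hM' R1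
  set β : ℝ := 1 / (P.card + 1) with hβ
  have b0 : 0 < β := by positivity
  have b1 : β * (P.card + 1) = 1 := by rw [hβ]; field_simp
  have b2 : 0 ≤ β * P.card := by positivity
  set Q : Set (Fin n ⊕ Fin m → ℂ) := Set.univ.pi fun _ => Metric.ball 0 (R + 2 * P.card + 1)
  refine ⟨Q.indicator fun w => 2 ^ P.card * (3 * (B + 4)) ^ P.card *
    ((∏ e ∈ P, (1 + gk (2 - β) (w (.inr e.2) - w (.inr e.1)))) * H w), (integrable_indicator_iff
    (MeasurableSet.univ_pi fun _ => Metric.isOpen_ball.measurableSet)).2 ?_, ?_⟩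
  · rw [IntegrableOn, volume_pi, Measure.restrict_pi_pi]
    refine Integrable.const_mul ?_ _
    have := Fn.pairs (γ := 2 - β) (by linarith) R1 (fun e => Sum.inr e.2) (fun e => Sum.inr e.1) P
      f1 (fun e he => ⟨fun h => ?_, Sum.inr_injective.ne (q1 e he).2.ne⟩) fun e he e' he' h => ?_
    · exact this
    · exact (Finset.mem_sdiff.1 (inr_mem_disjSum.1 h)).2 (mem_su.2 ⟨e, he, Or.inr rfl⟩)
    · have : (e.1 ≠ e'.1 ∧ e.1 ≠ e'.2) ∧ e.2 ≠ e'.1 ∧ e.2 ≠ e'.2 := by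
        simpa using q2 e' he' e he h.symm
      exact ⟨Sum.inr_injective.ne this.2.2, Sum.inr_injective.ne this.2.1⟩
  filter_upwards [hH, hB, self_mem_nhdsWithin] with a hH hB ha F L L0 hs h0 h1 w hw
  have c0 : 0 < 2 ^ P.card * L := by positivity
  have p0 : ∀ w : Fin n ⊕ Fin m → ℂ,
      0 ≤ ∏ e ∈ P, (1 + gk (2 - β) (w (.inr e.2) - w (.inr e.1))) :=
    fun w => prod_nonneg fun e _ => add_nonneg zero_le_one (gk_nonneg _ _)
  by_cases hr : RF F P (sh a w) w = 0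
  · rw [Ya, hr, zero_mul, norm_zero]
    exact mul_nonneg L0.le (Set.indicator_nonneg (fun w _ => mul_nonneg (by positivity)
      (mul_nonneg (p0 w) (f1.pos w))) _)
  obtain ⟨Q', s1, s2, s3⟩ := RF_ne hr
  have s4 : ∀ i, ‖w i‖ < R + 2 * P.card + 1 := fun i => by linarith [s3 i, hR _ (hs _ s2 i)]
  rw [Set.indicator_of_mem (show w ∈ Q from fun i _ => mem_ball_zero_iff.2 (s4 i)), Ya,
    Real.norm_eq_abs, abs_mul, abs_mul, ← mul_assoc L, ← mul_assoc L, mul_comm L, ← mul_assoc,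
    ← mul_assoc]
  refine mul_le_mul ?_ (hH j w _ hw (mq_ST s1 _ w) (hs _ s2)) (abs_nonneg _)
    (mul_nonneg (by positivity) (p0 w))
  set v := |RF F P (sh a w) w| / (2 ^ P.card * L) with hv
  have v0 : 0 ≤ v := by positivity
  have v1 : v ≤ 1 := (div_le_one c0).2 (RF_le h0)
  rw [mul_assoc, ← div_le_iff₀' c0, mul_div_right_comm, ← hv, ← prod_const, ← prod_mul_distrib,
    abs_prod]
  refine (mul_le_mul_of_nonneg_right (Real.self_le_rpow_of_le_one v0 v1 (y := β * P.card)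
    (by linarith)) (prod_nonneg fun _ _ => abs_nonneg _)).trans ?_
  rw [Real.rpow_mul_natCast v0, ← prod_const, ← prod_mul_distrib]
  refine prod_le_prod (fun _ _ => by positivity) fun e he => ?_
  have d0 : 0 < min 1 ‖df w e‖ := lt_min one_pos (norm_pos_iff.2 (sub_ne_zero.2
    ((hw.comp Sum.inr_injective).ne (q1 e he).2.ne')))
  refine (pair_le d0 (hB _ _ _ _ _ _ (s4 _).le (s4 _).le ⟨d0, min_le_left _ _⟩
    ⟨d0, min_le_left _ _⟩ ((min_le_right _ _).trans_eq (norm_sub_rev _ _)) (min_le_right _ _))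
    (pr_le h ha j w e) v0 ?_ b0.le (by linarith)).trans
    (mul_le_mul_of_nonneg_left (le_gk _) (by positivity))
  have k1 : v ≤ ‖sh a w e‖ := (div_le_iff₀' c0).2 (RF_le' h0 h1 he)
  have k2 := norm_le_norm_add_norm_sub (df w e) (sh a w e)
  have k3 := sh_near ha w e
  have k4 : (0 : ℝ) < a := ha
  rcases min_choice 1 ‖df w e‖ with e | e <;> rw [e] <;> linarith

theorem bm_ren (hE : Prob E) {a : ℝ} (ha : 0 < a) (κ : Fin 2 → Fin 2 → ℝ) (j : Fin m → Fin 2) :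
    BM fun w : Fin n ⊕ Fin m → ℂ => ren a (E a) κ (pw j w) :=
  BM.sum (mat univ) (f := fun (P : Finset (Fin m × Fin m)) w => (∏ e ∈ P, -(κ (j e.1) (j e.2) *
    dl a (w (.inr e.1)) (w (.inr e.2)))) *
      corr a (E a) (sub (pw j w) (univ \ su P : Finset (Fin m))))
    fun P => (BM.prod P fun e => ((BM.const _).mul (bm_dl ha e)).neg).mul
      (bm_sub hE ha j (univ \ su P))

theorem isDist_of (h : Inv μ) (ho : IsOpen D) (hE : Prob E) (hM : Maj D E)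
    (hM' : Maj Set.univ (famOf μ)) (hW : MajW D E (famOf μ)) {T : ∀ n m : ℕ, (Pos n m → ℝ) → ℝ}
    (hT : RenLim D E (k0 μ) 1 1 T) : IsDist D T := by
  intro n m
  have iF : ∀ {F : Pos n m → ℝ}, TestS D F → Integrable fun w => F (sP n m w) := fun hF =>
    (hF.1.continuous.comp (sP n m).continuous).integrable_of_hasCompactSupport
      (hF.2.1.comp_homeomorph (sP n m).toHomeomorph)
  replace hT := hT n m 0
  simp only [one_pow, one_mul, int_sP] at hT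
  refine ⟨fun F G c hF hG => tendsto_nhds_unique (hT _ ⟨hF.1.add (hG.1.const_smul c),
    hF.2.1.add hG.2.1.smul_left, (tsupport_add _ _).trans (Set.union_subset hF.2.2
      ((tsupport_smul_subset_right (fun _ => c) G).trans hG.2.2))⟩)
    (((hT F hF).add ((hT G hG).const_mul c)).congr' (eventually_mem_nhdsWithin.mono fun a ha => ?_)),
    fun K hK hc => ?_⟩
  · have b := bm_ren (n := n) hE ha (k0 μ a) (0 : Fin m → Fin 2)
    beta_reduce
    rw [← integral_const_mul, ← integral_add (b.int (iF hF)) ((b.int (iF hG)).const_mul c)]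
    simp only [Pi.add_apply, Pi.smul_apply, smul_eq_mul, add_mul, mul_assoc]
  have k := fun P : mat (univ : Finset (Fin m)) => Ya_lin (n := n) h ho hK hc hM hM' hW P.2 0
  choose G g1 g2 using k
  refine ⟨∑ P, ∫ w, G P w, fun F L L0 hF hs h0 h1 => le_of_tendsto (hT F hF).abs ?_⟩
  filter_upwards [eventually_all.2 g2, self_mem_nhdsWithin] with a g2 ha
  refine (congrArg abs (ren_eq h hE ha 0 (iF hF))).trans_le ?_
  rw [← sum_coe_sort, sum_mul]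
  refine (abs_sum_le_sum_abs _ _).trans (sum_le_sum fun P _ => ?_)
  rw [mul_comm, ← integral_const_mul, ← Real.norm_eq_abs]
  refine norm_integral_le_of_norm_le ((g1 P).const_mul L) ((P144DI.ae_inj _).mono (g2 P _ L L0 ?_
    (fun _ => h0 _) fun w w' => (h1 _ _).trans (mul_le_mul_of_nonneg_left ?_ L0.le)))
  · rintro w hw (i | i)
    exacts [(hs _ hw).1 i, (hs _ hw).2 i]
  · exact norm_prod_le_iff.2 ⟨(pi_norm_le_iff_of_nonneg (norm_nonneg _)).2 fun i =>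
      norm_le_pi_norm (w - w') (.inl i), (pi_norm_le_iff_of_nonneg (norm_nonneg _)).2 fun i =>
        norm_le_pi_norm (w - w') (.inr i)⟩

end

open Filter Topology MeasureTheory Vale.Agent.P144 Vale.Agent.P144Z U2D AN Vale.Agent.P144F
open Vale.Agent.P144DD Vale.Agent.P144DT Vale.Agent.P144DU

/-- The final statement. -/
def Final2 : Prop :=
  ∀ J > 0, ∃ (C : Pts → ℝ) (CD : Set ℂ → Option (ℝ → Config) → Pts → ℝ)
    (ν : ∀ r : ℕ, (Fin r → ℂ → ℝ) → Measure (Fin r → ℝ))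
    (νD : Set ℂ → Option (ℝ → Config) → ∀ r : ℕ, (Fin r → ℂ → ℝ) → Measure (Fin r → ℝ))
    (κ₀ : ℝ → Fin 2 → Fin 2 → ℝ) (T : ∀ n m : ℕ, (Pos n m → ℝ) → ℝ)
    (TD : Set ℂ → Option (ℝ → Config) → ∀ n m : ℕ, (Pos n m → ℝ) → ℝ),
    (∃ E₀, PlaneFam J 0 (fun _ => 0) (Kc / J) E₀) ∧
    (∃ μ₀, IsPlaneState J 0 (fun _ => 0) (Kc / J) μ₀ ∧ κ₀ = kz μ₀) ∧
    (∀ p, Good Set.univ p → (∀ E₀, PlaneFam J 0 (fun _ => 0) (Kc / J) E₀ → Lim E₀ p (C p)) ∧
      (∀ j, C { p with j := j } = C p) ∧ (p.m = 0 → Even p.n → 0 < C p)) ∧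
    P144F.RP C ∧ P144F.IsLaw Set.univ C ν ∧ Extends Set.univ C T ∧ IsDist Set.univ T ∧
    (∀ E₀, PlaneFam J 0 (fun _ => 0) (Kc / J) E₀ → P144F.FieldLim Set.univ E₀ 1 ν ∧
      DistLim Set.univ E₀ 1 1 C ∧ RenLim Set.univ E₀ κ₀ 1 1 T) ∧
    (∀ D b, P144Y.Nice D b → (∀ p, Good D p → Lim (crit J D b) p (CD D b p) ∧
      (∀ j, CD D b { p with j := j } = CD D b p) ∧
      (p.m = 0 → (b = none ∧ Even p.n ∨ b = some fun _ _ => true) → 0 < CD D b p)) ∧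
      P144F.IsLaw D (CD D b) (νD D b) ∧ P144F.FieldLim D (crit J D b) 1 (νD D b)) ∧
    ∀ K < 1, ∀ V, IsPotential V → ∃ lam₀ > 0,
      ∃ β Zσ Zε : ℝ → ℝ, AnalyticOnNhd ℝ β (Set.Ioo (-lam₀) lam₀) ∧
      AnalyticOnNhd ℝ Zσ (Set.Ioo (-lam₀) lam₀) ∧ AnalyticOnNhd ℝ Zε (Set.Ioo (-lam₀) lam₀) ∧
      β 0 = Kc / J ∧ Zσ 0 = 1 ∧ Zε 0 = 1 ∧ ∀ lam : ℝ, |lam| < lam₀ →
        0 < β lam ∧ 0 < Zσ lam ∧ 0 < Zε lam ∧ ∃ c : Fin 2 → Fin 2 → ℝ,
        (∃ μ, IsPlaneState J lam V (β lam) μ ∧ IsTorusState J lam V (β lam) μ ∧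
          (∀ p, Good Set.univ p → Lim (famOf μ) p (Zσ lam ^ p.n * Zε lam ^ p.m * C p)) ∧
          (∀ E₀, PlaneFam J 0 (fun _ => 0) (Kc / J) E₀ →
            LocDiff Set.univ E₀ (famOf μ) (Zσ lam) (Zε lam)) ∧
          P144F.FieldLim Set.univ (famOf μ) (Zσ lam) ν ∧
          DistLim Set.univ (famOf μ) (Zσ lam) (Zε lam) C ∧
          RenLim Set.univ (famOf μ) (fun a j j' => Zε lam ^ 2 * κ₀ a j j' + c j j')
            (Zσ lam) (Zε lam) T) ∧
        ∀ D b, (IsC1 D ∨ IsPC1 D ∨ IsPolygon D ∨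
            (IsOpen D ∧ Bornology.IsBounded D ∧ Convex ℝ D) ∨ IsLip K D) → StdBC b →
          LocDiff D (crit J D b) (inDom J lam V (β lam) D b) (Zσ lam) (Zε lam) ∧
            Identity D (crit J D b) (inDom J lam V (β lam) D b) (Zσ lam) (Zε lam) ∧
            DistDiff D (crit J D b) (inDom J lam V (β lam) D b) (Zσ lam) (Zε lam) ∧
            RenDiff D (crit J D b) (inDom J lam V (β lam) D b) κ₀
              (fun a j j' => Zε lam ^ 2 * κ₀ a j j' + c j j') (Zσ lam) (Zε lam) ∧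
            (P144Y.Nice D b → (∀ p, Good D p →
              Lim (inDom J lam V (β lam) D b) p (Zσ lam ^ p.n * Zε lam ^ p.m * CD D b p)) ∧
              P144F.FieldLim D (inDom J lam V (β lam) D b) (Zσ lam) (νD D b) ∧
              DistLim D (inDom J lam V (β lam) D b) (Zσ lam) (Zε lam) (CD D b) ∧
              Extends D (CD D b) (TD D b) ∧ IsDist D (TD D b) ∧
              RenLim D (inDom J lam V (β lam) D b)
                (fun a j j' => Zε lam ^ 2 * κ₀ a j j' + c j j') (Zσ lam) (Zε lam) (TD D b))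

theorem final : Final2 := by
  intro J hJ
  have hA := P144DA.blkA2
  have hP := P144DA.blkP2
  have hB := DX.blkB
  have hM := P144DC.blkC
  have hH := blkH
  have hI := P144DI.blkI
  have hZ := P144DZ.blkZ
  have hV := DV.blkV
  have hV0 := P144DV.blkV0
  have hW := CW.blkW
  have hH2 := blkH2
  have hI2 := P144DI.blkI2
  obtain ⟨κ, -, -, h⟩ := Results.P144.AAAAAll.result
  obtain ⟨C, CD, ⟨E', hE'⟩, hC, hD, -⟩ := h J hJ
  obtain ⟨ν₀, -, hν₀⟩ := rep_plane hE'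
  have s0 := hν₀ 1
  generalize ν₀ 1 = μ₀ at s0
  have hE : PlaneFam J 0 (fun _ => 0) (Kc / J) (famOf μ₀) :=
    ⟨fun _ => μ₀, fun _ _ => s0, fun _ _ => rfl⟩
  have i0 : P144DR.Inv μ₀ := ⟨s0.1, s0.2.1⟩
  obtain ⟨cD, cP⟩ := hM J hJ
  obtain ⟨v1, v2, v3⟩ := hV0 J hJ μ₀ s0
  obtain ⟨εW, w0, hW⟩ := hW
  have hC' : ∀ p, Good Set.univ p → (∀ E₀, PlaneFam J 0 (fun _ => 0) (Kc / J) E₀ →
      Lim E₀ p (one C p)) ∧ (∀ j, one C { p with j := j } = one C p) ∧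
      (p.m = 0 → Even p.n → 0 < one C p) := fun p hp => by
    simpa only [one_good C hp, one_j C hp] using hC p hp
  have hD' : ∀ D b, P144Y.Nice D b → ∀ p, Good D p → Lim (crit J D b) p (one (CD D b) p) ∧
      (∀ j, one (CD D b) { p with j := j } = one (CD D b) p) ∧
      (p.m = 0 → (b = none ∧ Even p.n ∨ b = some fun _ _ => true) → 0 < one (CD D b) p) :=
    fun D b hN p hp => by simpa only [one_good (CD D b) hp, one_j (CD D b) hp] using hD D b hN p hp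
  obtain ⟨ν, n1, n2, n3⟩ := plane_field (C := one C) hJ (one_zero C _ rfl)
    (fun p hp => (hC' p hp).1) hE
  have hν : ∀ D b, ∃ νD, P144Y.Nice D b → IsLaw D (one (CD D b)) νD ∧
      FieldLim D (crit J D b) 1 νD ∧ ∀ (E : Fam) (μ : ℝ → Measure Config) (Z Z' : ℝ),
        (∀ a, IsProbabilityMeasure (μ a)) → P144F.Rep E μ → LocDiff D (crit J D b) E Z Z' →
          (∀ K ⊆ D, IsCompact K → ZB μ K) → FieldLim D E Z νD := fun D b => by
    by_cases hN : P144Y.Nice D b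
    · have o : IsOpen D ∧ Bornology.IsBounded D :=
        hN.cases.elim (fun h => ⟨h.1.1, h.1.2.1⟩) fun h => ⟨h.1.1, h.1.2.1⟩
      exact (dom_field (b := b) (C := one (CD D b)) hJ o.1 o.2 (one_zero _ _ rfl)
        fun p hp => (hD' D b hN p hp).1).imp fun _ h _ => h
    · exact ⟨fun _ _ => 0, fun h => absurd h hN⟩
  choose νD hν using hν
  have dP : ∀ E₀, PlaneFam J 0 (fun _ => 0) (Kc / J) E₀ → DistLim Set.univ E₀ 1 1 (one C) :=
    fun E₀ h => hI _ _ _ isOpen_univ (prob_plane h) (cP _ h) (one_zero C)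
      fun p hp => (hC' p hp).1 _ h
  replace hI2 := hI2 μ₀ (one C) i0 (cP _ hE) fun p hp => ⟨(hC' p hp).1 _ hE, (hC' p hp).2.1⟩
  obtain ⟨T, t1, t2⟩ := hI2 _ _ _ isOpen_univ (prob_fam s0.1) (cP _ hE)
    ((hW _ w0 le_rfl).elim fun L h => (h L le_rfl J hJ μ₀ s0).1) (one_zero C)
    fun p hp => ⟨(hC' p hp).1 _ hE, (hC' p hp).2.1⟩
  have hT : ∀ D b, ∃ TD, (∃ T, RenLim D (crit J D b) (k0 μ₀) 1 1 T ∧ Extends D (one (CD D b)) T) →
      RenLim D (crit J D b) (k0 μ₀) 1 1 TD ∧ Extends D (one (CD D b)) TD := fun D b => by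
    by_cases h : ∃ T, RenLim D (crit J D b) (k0 μ₀) 1 1 T ∧ Extends D (one (CD D b)) T
    exacts [h.imp fun _ h _ => h, ⟨T, fun h' => absurd h' h⟩]
  choose TD hT using hT
  refine ⟨one C, fun D b => one (CD D b), ν, νD, k0 μ₀, T, TD, ⟨_, hE⟩, ⟨μ₀, s0, rfl⟩, hC',
    rp_plane hJ (one_zero C) hE fun p hp => ⟨(hC' p hp).1 _ hE, (hC' p hp).2.1⟩, n1, t2,
    isDist_of i0 isOpen_univ (prob_fam s0.1) (cP _ hE) (cP _ hE)
      ((hW _ w0 le_rfl).elim fun L h => (h L le_rfl J hJ μ₀ s0).1) t1,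
    fun E₀ h => ⟨n2 E₀ h, dP E₀ h, renLim_congr (v1 E₀ h) t1⟩,
    fun D b hN => ⟨hD' D b hN, (hν D b hN).1, (hν D b hN).2.1⟩, fun K hK V hV' => ?_⟩
  obtain ⟨εA, a0, hA⟩ := hA
  obtain ⟨εB, b0, hB⟩ := hB
  obtain ⟨εV, c0, hV⟩ := hV
  obtain ⟨ε, e0, e1, e2, e3, e4⟩ : ∃ ε > (0 : ℝ), ε ≤ εA ∧ ε ≤ εB ∧ ε ≤ εV ∧ ε ≤ εW :=
    ⟨min (min εA εB) (min εV εW), by positivity, (min_le_left _ _).trans (min_le_left _ _),
      (min_le_left _ _).trans (min_le_right _ _), (min_le_right _ _).trans (min_le_left _ _),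
      (min_le_right _ _).trans (min_le_right _ _)⟩
  obtain ⟨lam₀, l0, β, Zσ, Zε, a1, a2, a3, a4, a5, a6, h⟩ := par_of (ev_and
    (ev_and (ev_and (hA _ e0 e1) (hB _ e0 e2)) (ev_and (hV _ e0 e3) (ev_of (hW _ e0 e4))))
    (ev_and hP (ev_of (domG_of hK e0)))) hJ hV'
  refine ⟨lam₀, l0, β, Zσ, Zε, a1, a2, a3, a4, a5, a6, fun lam hl => ?_⟩
  obtain ⟨h1, h2, h3, L, q, rfl, hr, e1, e2, ⟨⟨⟨qA, qB⟩, qV, qW⟩, qP, L2, qG⟩, μ, m1, m2⟩ :=
    h lam hl
  have hr' : UL.Rel J lam (β lam) q := ⟨hr.pot, hr.range, hr.mu, hr.x⟩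
  rw [← e1, ← e2] at qA qP
  have uR := qP J lam _ hJ hr μ m2
  have u := fun E₀ h => udp_of (uR E₀ h)
  have l := fun E₀ h => (udiff_of (u E₀ h)).loc isOpen_univ
  have zP := hZ μ _ _ _ m1.1 m1.2.1 (u _ hE) (cP _ hE)
  obtain ⟨v4, v5⟩ := qV J lam _ hJ hr μ m2
  obtain ⟨c, hc⟩ := hH2 μ₀ μ _ _ i0 ⟨m1.1, m1.2.1⟩ (cP _ hE) (uR _ hE)
  refine ⟨h1, h2, h3, c, ⟨μ, m1, m2, fun p hp => ident (l _ hE).diff p hp _ ((hC' p hp).1 _ hE), l,
    n3 μ _ _ m1.1 m1.2.1 (l _ hE), distLim_of (hH _ _ _ _ _ isOpen_univ (prob_plane hE)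
      (prob_fam m1.1) (u _ hE) zP (cP _ hE)) (dP _ hE), renLim_of (hc _ _ _ isOpen_univ
        (prob_fam s0.1) (prob_fam m1.1) (uR _ hE) zP (cP _ hE) v2 v4 (loc_self _ _) (loc_self _ _))
        t1⟩, fun D b hK hb => ?_⟩
  have ho : IsOpen D := Cls.isOpen hK
  have bd : Bornology.IsBounded D := (Cls.cases hK).elim (fun ⟨_, _, h⟩ => h.2.1) fun h => h.2.1
  have dG := qG D hK
  have uD := qA J lam _ hJ hr' D b dG hb
  have u := udp_of uD
  have z := qB J lam _ hJ hr' D b dG hb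
  have mj := cD L _ D b L2 dG hb
  have l := (udiff_of u).loc ho
  have dd := hH _ _ _ _ _ ho (prob_dom J 0 _ _ D b) (prob_dom J lam _ _ D b) u z mj
  have rd := hc _ _ _ ho (prob_dom J 0 _ _ D b) (prob_dom J lam _ _ D b) uD z mj
    (v3 D b ho bd hb).1 (v5 D b dG hb).1 (v3 D b ho bd hb).2 (v5 D b dG hb).2
  refine ⟨l, ident l.diff, dd, rd, fun hN => ?_⟩
  obtain ⟨t3, t4⟩ := hT D b (hI2 _ _ _ ho (prob_dom J 0 _ _ D b) mj ((qW J hJ μ₀ s0).2 D b dG hb)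
    (one_zero _) fun p hp => ⟨(hD' D b hN p hp).1, (hD' D b hN p hp).2.1⟩)
  refine ⟨fun p hp => ident l.diff p hp _ (hD' D b hN p hp).1, ?_,
    distLim_of dd (hI _ _ _ ho (prob_dom J 0 _ _ D b) mj (one_zero _)
      fun p hp => (hD' D b hN p hp).1), t4, isDist_of i0 ho (prob_dom J 0 _ _ D b) mj (cP _ hE)
        ((qW J hJ μ₀ s0).2 D b dG hb) t3, renLim_of rd t3⟩
  obtain ⟨μ', p1, p2⟩ := prob_dom J lam q.V (β lam) D b
  exact (hν D b hN).2.2 _ μ' _ _ p1 p2 l (zb_of ho z p2)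

end Vale.Agent.P144DR
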