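import Vale.Agent.P144DR.Qk

/-!
The law of large numbers, by induction on the scale.
-/

namespace Vale.Agent.P144DR

open Filter Topology MeasureTheory Vale.Agent.P144 Vale.Agent.P144Z Vale.Agent.P144F
open Vale.Agent.P144DD Finset

/-- The mean deviation. -/
noncomputable def dev (μ : Measure Config) (Y : Config → ℝ) : ℝ := ∫ σ, |Y σ - ∫ τ, Y τ ∂μ| ∂μ

section

variable {μ : Measure Config} [IsProbabilityMeasure μ] {Y Z : Config → ℝ}

theorem dev_add (hY : Bm Y) (hZ : Bm Z) : dev μ (fun σ => Y σ + Z σ) ≤ dev μ Y + dev μ Z := by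
  have i := fun {Y} (h : Bm Y) => (h.sub (Bm.const (∫ τ, Y τ ∂μ))).abs.int μ
  rw [dev, dev, dev, ← integral_add (i hY) (i hZ)]
  refine integral_mono (i (hY.add hZ)) ((i hY).add (i hZ)) fun σ => ?_
  dsimp only
  rw [integral_add (hY.int μ) (hZ.int μ), add_sub_add_comm]
  exact abs_add_le _ _

theorem dev_le (hY : Bm Y) {t C : ℝ} (ht : 0 < t)
    (h : ∫ σ, (Y σ - ∫ τ, Y τ ∂μ) ^ 2 ∂μ ≤ C * t ^ 2) : dev μ Y ≤ (1 + C) * t := by
  have b := hY.sub (Bm.const (∫ τ, Y τ ∂μ))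
  refine (integral_mono (b.abs.int μ) ((integrable_const t).add (((b.pow 2).int μ).div_const t))
    fun σ => ?_).trans ?_
  · simp only [Pi.add_apply]
    rw [add_div' _ _ _ ht.ne', le_div_iff₀ ht, ← sq_abs]
    nlinarith [sq_nonneg (|Y σ - ∫ τ, Y τ ∂μ| - t)]
  · simp only [Pi.add_apply]
    rw [integral_add (integrable_const t) (((b.pow 2).int μ).div_const t), integral_const,
      probReal_univ, one_smul, integral_div, add_mul, one_mul]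
    exact add_le_add_right ((div_le_iff₀ ht).2 (h.trans_eq (by ring))) _

end

theorem fl_half (s : ℝ) : fl s = fun v => ((fl (s / 2) v).1 / 2, (fl (s / 2) v).2 / 2) := by
  have k : ∀ u : ℝ, ⌊u / s⌋ = ⌊u / (s / 2)⌋ / 2 := fun u => by
    have := Int.floor_div_natCast (u / (s / 2)) 2
    rwa [div_div, Nat.cast_ofNat, div_mul_cancel₀ _ two_ne_zero] at this
  exact funext fun v => Prod.ext (k _) (k _)

theorem ceil_le {R s : ℝ} (hR : 0 ≤ R) (hs : 0 < s) : (2 * ⌈R / s⌉₊ + 1 : ℝ) * s ≤ 2 * R + 3 * s := by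
  have k := mul_le_mul_of_nonneg_right (Nat.ceil_lt_add_one (a := R / s) (by positivity)).le hs.le
  rw [add_mul, div_mul_cancel₀ _ hs.ne'] at k
  linarith

/-- Distant pairs are almost independent. -/
def CV (μ : ℝ → Measure Config) (U U' : ℝ → ℂ → Config → ℝ) (K : Set ℂ) : Prop :=
  ∀ θ > (0 : ℝ), ∀ k : ℕ, ∃ κ > (0 : ℝ), ∀ᶠ a in 𝓝[>] (0 : ℝ), ∀ s ≤ a ^ θ, ∀ v ∈ K, ∀ w ∈ K,
    ∀ v' ∈ K, ∀ w' ∈ K, ‖v - w‖ ≤ s → ‖v' - w'‖ ≤ s → s ≤ k * (‖v - w‖ + a) →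
      s ≤ k * (‖v' - w'‖ + a) → a ^ (θ / 2) ≤ ‖v - v'‖ → |∫ σ, U a v σ * U' a w σ *
        (U a v' σ * U' a w' σ - ∫ τ, U a v' τ * U' a w' τ ∂μ a) ∂μ a| * s ^ 4 ≤ a ^ κ

variable {μ : ℝ → Measure Config} [∀ a, IsProbabilityMeasure (μ a)] {U U' : ℝ → ℂ → Config → ℝ}
  {b b' : ℝ → ℝ} {K : Set ℂ} {R θ : ℝ}

theorem lev1 (hR : ∀ z ∈ K, ‖z‖ ≤ R) (R0 : 0 < R) (hU : ∀ a > 0, Ker (U a) (b a))
    (hU' : ∀ a > 0, Ker (U' a) (b' a)) (hM : MK μ U 1 K) (hM' : MK μ U' 1 K) (hC : CV μ U U' K)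
    (hθ : 0 < θ) (L : ℕ) : ∃ κ > (0 : ℝ), ∀ᶠ a in 𝓝[>] (0 : ℝ), ∀ s > 0, s ≤ a ^ θ → ∀ f f' W,
      Tb K f → Tb K f' → (∀ u u', |W u u'| ≤ 1) → (∀ u u', W u u' ≠ 0 → zd u u' ≤ L ∧
        (2 ≤ zd u u' ∨ s ≤ a)) → dev (μ a) (QQ (U a) (U' a) f f' (fl s) W) ≤ a ^ κ := by
  obtain ⟨κ, hκ, hC⟩ := hC (θ / 2) (by positivity) (2 * L + 2)
  obtain ⟨B, r, B0, r0, hM⟩ := hM 2 two_ne_zero (θ / 16) (by positivity)
  obtain ⟨B', r', B1, r1, hM'⟩ := hM' 2 two_ne_zero (θ / 16) (by positivity)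
  set t := min κ (θ / 4) with ht
  have t0 : 0 < t := by positivity
  set M : ℝ := (2 * L + 1) ^ 2 with hM1
  refine ⟨t / 4, by positivity, ?_⟩
  filter_upwards [hC, hM, hM', Ioo_mem_nhdsGT one_pos, ev_le (2 * L + 2) (half_lt_self hθ),
    (tendsto_rp hθ).eventually (ge_mem_nhds (lt_min r0 r1)), ev_le (1 + ((2 * R + 3) ^ 4 * M ^ 2 +
      (2 * R + 3) ^ 2 * 5 ^ 2 * (M * (B + B')) ^ 4)) (t := t / 2) (t' := t / 4) (by linarith)]
    with a hC hM hM' ha e1 e2 e3 s s0 s1 f f' W h h' hW hL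
  have mi : ∀ {f}, Tb K f → Mi f := fun h => h.mi s0 fun z hz =>
    mem_bx s0 (hR z (h.2.2 z hz)) (Nat.le_ceil _)
  obtain ⟨c, k⟩ := ker_QQ (hU a ha.1) (hU' a ha.1) (mi h') (meas_fl s) hW
  have w0 := Real.rpow_pos_of_pos ha.1 (-(θ / 16))
  have ρ0 := Real.rpow_pos_of_pos ha.1 (θ / 2 / 2)
  have κ0 := Real.rpow_pos_of_pos ha.1 κ
  have L0 : (0 : ℝ) ≤ L := Nat.cast_nonneg L
  have es : s ^ 2 / s ^ (1 : ℝ) = s := by rw [Real.rpow_one, sq, mul_div_cancel_right₀ _ s0.ne']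
  refine (dev_le (k.bm (mi h)) (Real.rpow_pos_of_pos ha.1 _) ((lev (hU a ha.1) (hU' a ha.1) s0 h h'
    (fun z hz => mem_bx s0 (hR z hz) (Nat.le_ceil _)) hW (fun u u' e => (hL u u' e).1)
    (N := ⌈a ^ (θ / 2 / 2) / s⌉₊) (y := (B + B') * a ^ (-(θ / 16)) * s) (ε := a ^ κ / s ^ 4)
    (by positivity) (fun f c hf => (hM s s0 (s1.trans (e2.trans (min_le_left _ _))) f c hf).trans ?_)
    (fun f c hf => (hM' s s0 (s1.trans (e2.trans (min_le_right _ _))) f c hf).trans ?_)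
    fun v hv w hw v' hv' w' hw' n1 n2 n3 => ?_).trans ?_)).trans e3
  · rw [es]
    gcongr
    linarith
  · rw [es]
    gcongr
    linarith
  · have g : ∀ v w, W (fl s v) (fl s w) ≠ 0 → ‖v - w‖ ≤ (2 * L + 2) * s ∧
        (2 * L + 2) * s ≤ (2 * L + 2 : ℕ) * (‖v - w‖ + a) := fun v w e => by
      obtain ⟨a1, a2⟩ := P144DY.zd_fl s0 v w
      obtain ⟨a3, a4⟩ := hL _ _ e
      have a5 : (zd (fl s v) (fl s w) : ℝ) ≤ L := by exact_mod_cast a3
      refine ⟨(div_le_iff₀ s0).1 (by linarith), ?_⟩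
      push_cast
      refine mul_le_mul_of_nonneg_left (a4.elim (fun a4 => ?_) fun a4 => ?_) (by positivity)
      · have a6 : (2 : ℝ) ≤ zd (fl s v) (fl s w) := by exact_mod_cast a4
        linarith [(one_le_div s0).1 (by linarith : 1 ≤ ‖v - w‖ / s), ha.1]
      · linarith [norm_nonneg (v - w)]
    have := hC ((2 * L + 2) * s) ((mul_le_mul_of_nonneg_left s1 (by positivity)).trans e1) v hv w hw
      v' hv' w' hw' (g _ _ n1).1 (g _ _ n2).1 (g _ _ n1).2 (g _ _ n2).2 (by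
        have a1 : (⌈a ^ (θ / 2 / 2) / s⌉₊ : ℝ) + 1 ≤ zd (fl s v) (fl s v') := by exact_mod_cast n3
        exact (div_le_div_iff_of_pos_right s0).1 (by
          linarith [(P144DY.zd_fl s0 v v').1, Nat.le_ceil (a ^ (θ / 2 / 2) / s)]))
    refine (le_div_iff₀ (by positivity)).2 (le_trans ?_ this)
    gcongr
    nlinarith
  · have s2 : a ^ θ ≤ a ^ (θ / 2 / 2) := Real.rpow_le_rpow_of_exponent_ge ha.1 ha.2.le (by linarith)
    have s3 := Real.rpow_le_one ha.1.le ha.2.le hθ.le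
    have k1 : (2 * ⌈R / s⌉₊ + 1 : ℝ) * s ≤ 2 * R + 3 := by linarith [ceil_le R0.le s0]
    have k2 : (2 * ⌈a ^ (θ / 2 / 2) / s⌉₊ + 1 : ℝ) * s ≤ 5 * a ^ (θ / 2 / 2) := by
      linarith [ceil_le ρ0.le s0]
    have k3 : a ^ κ ≤ (a ^ (t / 2)) ^ 2 := by
      rw [← Real.rpow_mul_natCast ha.1.le]
      exact Real.rpow_le_rpow_of_exponent_ge ha.1 ha.2.le (by simp [ht])
    have k4 : (a ^ (θ / 2 / 2)) ^ 2 * (a ^ (-(θ / 16))) ^ 4 ≤ (a ^ (t / 2)) ^ 2 := by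
      simp only [← Real.rpow_mul_natCast ha.1.le, ← Real.rpow_add ha.1]
      exact Real.rpow_le_rpow_of_exponent_ge ha.1 ha.2.le (by
        push_cast
        linarith [min_le_right κ (θ / 4)])
    rw [card_bx, ← hM1]
    push_cast
    calc _ = ((2 * ⌈R / s⌉₊ + 1 : ℝ) * s) ^ 4 * M ^ 2 * a ^ κ + ((2 * ⌈R / s⌉₊ + 1 : ℝ) * s) ^ 2 *
          ((2 * ⌈a ^ (θ / 2 / 2) / s⌉₊ + 1 : ℝ) * s) ^ 2 * (M * (B + B')) ^ 4 *
            (a ^ (-(θ / 16))) ^ 4 := by field_simp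
      _ ≤ (2 * R + 3) ^ 4 * M ^ 2 * (a ^ (t / 2)) ^ 2 + (2 * R + 3) ^ 2 * (5 * a ^ (θ / 2 / 2)) ^ 2 *
          (M * (B + B')) ^ 4 * (a ^ (-(θ / 16))) ^ 4 := by gcongr
      _ ≤ _ := by
        have := mul_le_mul_of_nonneg_left k4
          (by positivity : 0 ≤ (2 * R + 3) ^ 2 * 5 ^ 2 * (M * (B + B')) ^ 4)
        linarith

theorem lln (hR : ∀ z ∈ K, ‖z‖ ≤ R) (R0 : 0 < R) (hU : ∀ a > 0, Ker (U a) (b a))
    (hU' : ∀ a > 0, Ker (U' a) (b' a)) (hM : MK μ U 1 K) (hM' : MK μ U' 1 K) (hC : CV μ U U' K)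
    (hθ : 0 < θ) {L : ℕ} (hL : 3 ≤ L) : ∃ κ > (0 : ℝ), ∀ᶠ a in 𝓝[>] (0 : ℝ), ∀ f f' W,
      Tb K f → Tb K f' → (∀ u u', |W u u'| ≤ 1) → (∀ u u', W u u' ≠ 0 → zd u u' ≤ L) →
        dev (μ a) (QQ (U a) (U' a) f f' (fl (a ^ θ)) W) ≤ a ^ κ := by
  obtain ⟨κ, hκ, h⟩ := lev1 hR R0 hU hU' hM hM' hC hθ L
  have p : 0 < (2 : ℝ) ^ (κ / 2) - 1 := sub_pos.2 (Real.one_lt_rpow one_lt_two (by positivity))
  refine ⟨κ / 4, by positivity, ?_⟩
  filter_upwards [h, Ioo_mem_nhdsGT one_pos, ev_le ((2 ^ (κ / 2) - 1)⁻¹ + 2) (t := κ / 2)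
    (t' := κ / 4) (by linarith)] with a h ha e1 f f' W hf hf' hW hW'
  have ind : ∀ (N : ℕ) (s : ℝ), 0 < s → s ≤ a ^ θ → s ≤ 2 ^ N * a → ∀ W : Site → Site → ℝ,
      (∀ u u', |W u u'| ≤ 1) → (∀ u u', W u u' ≠ 0 → zd u u' ≤ L) →
        dev (μ a) (QQ (U a) (U' a) f f' (fl s) W) ≤ (N + 1) * a ^ κ := by
    intro N
    induction N with
    | zero =>
      exact fun s s0 s1 s2 W hW hW' => by
        simpa using h s s0 s1 f f' W hf hf' hW fun u u' e => ⟨hW' u u' e, Or.inr (by simpa using s2)⟩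
    | succ N ih =>
      intro s s0 s1 s2 W hW hW'
      have cv := fun {f} (h : Tb K f) z hz => mem_bx s0 (hR z (h.2.2 z hz)) (Nat.le_ceil _)
      have w : ∀ (p : Site → Site → Prop) [∀ u u', Decidable (p u u')] u u',
          |if p u u' then W u u' else 0| ≤ 1 := fun p _ u u' => by
        split_ifs
        exacts [hW u u', by simp]
      have q := fun W hW => QQ_eq (W := W) (B := 1) (hU a ha.1) (hU' a ha.1) (hf.mi s0 (cv hf))
        (hf'.mi s0 (cv hf')) (meas_fl s) hW (cv hf)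
      have bm := fun W hW => (ker_QQ (W := W) (B := 1) (hU a ha.1) (hU' a ha.1) (hf'.mi s0 (cv hf'))
        (meas_fl s) hW).elim fun c k => k.bm (hf.mi s0 (cv hf))
      have w1 := w (2 ≤ zd · ·)
      have w2 := w (zd · · < 2)
      have e : QQ (U a) (U' a) f f' (fl s) W = fun σ =>
          QQ (U a) (U' a) f f' (fl s) (fun u u' => if 2 ≤ zd u u' then W u u' else 0) σ +
          QQ (U a) (U' a) f f' (fl s) (fun u u' => if zd u u' < 2 then W u u' else 0) σ := by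
        funext σ
        rw [q _ hW, q _ w1, q _ w2, ← sum_add_distrib]
        refine sum_congr rfl fun u _ => ?_
        have i := fun H hH => (hU' a ha.1).int
          (mi_mul (H := H) (B := 1) (hf'.mi s0 (cv hf')) (meas_fl s) hH) σ
        rw [← mul_add, fd, fd, fd, fd, ← integral_add (i _ (w1 u)) (i _ (w2 u))]
        congr 2
        funext z
        by_cases e : 2 ≤ zd u (fl s z) <;> simp [e, ← not_le]
      rw [e]
      refine (dev_add (bm _ w1) (bm _ w2)).trans ((add_le_add (h s s0 s1 f f' _ hf hf' w1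
        fun u u' e => ?_) (?_ : _ ≤ (N + 1) * a ^ κ)).trans_eq (by push_cast; ring))
      · rw [ne_eq, ite_eq_right_iff, Classical.not_imp] at e
        exact ⟨hW' u u' e.2, Or.inl e.1⟩
      · rw [fl_half s]
        refine ih (s / 2) (half_pos s0) (by linarith) (by rw [pow_succ] at s2; linarith)
          (fun u u' => if zd (u.1 / 2, u.2 / 2) (u'.1 / 2, u'.2 / 2) < 2 then
            W (u.1 / 2, u.2 / 2) (u'.1 / 2, u'.2 / 2) else 0) (fun u u' => w2 _ _)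
          fun u u' e => ?_
        rw [ne_eq, ite_eq_right_iff, Classical.not_imp] at e
        have := e.1
        simp only [zd] at this ⊢
        omega
  obtain ⟨N, n1, n2⟩ := exists_nat_pow_near ((one_le_inv₀ ha.1).2 ha.2.le) one_lt_two
  refine (ind (N + 1) _ (Real.rpow_pos_of_pos ha.1 θ) le_rfl ((Real.rpow_le_one ha.1.le ha.2.le
    hθ.le).trans ((inv_lt_iff_one_lt_mul₀ ha.1).1 n2).le) W hW hW').trans (le_trans ?_ e1)
  have k0 := Real.rpow_pos_of_pos ha.1 (κ / 2)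
  have k1 := Real.rpow_le_one ha.1.le ha.2.le (half_pos hκ).le
  have k2 := one_add_mul_le_pow (a := (2 : ℝ) ^ (κ / 2) - 1) (by linarith) N
  have k3 := Real.rpow_le_rpow (by positivity) n1 (half_pos hκ).le
  rw [← Real.rpow_natCast, ← Real.rpow_mul zero_le_two, mul_comm, Real.rpow_mul_natCast zero_le_two,
    Real.inv_rpow ha.1.le, ← mul_one (_ : ℝ)⁻¹, le_inv_mul_iff₀ k0] at k3
  rw [add_sub_cancel] at k2
  have k4 : N * a ^ (κ / 2) ≤ (2 ^ (κ / 2) - 1)⁻¹ := by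
    rw [← mul_one (_ : ℝ)⁻¹, le_inv_mul_iff₀ p]
    nlinarith [mul_le_mul_of_nonneg_left k2 k0.le]
  rw [← add_halves κ, Real.rpow_add ha.1, add_halves, ← mul_assoc]
  refine mul_le_mul_of_nonneg_right ?_ k0.le
  push_cast
  linarith

end Vale.Agent.P144DR
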