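import Vale.Agent.P144DR.Rv
import Vale.Agent.P144DD.Cmb

/-!
The sum over distinct cells, expanded in the pairs of energies in the same cell.
-/

namespace Vale.Agent.P144DR

open Filter Topology MeasureTheory Vale.Agent.P144 Vale.Agent.P144F Vale.Agent.P144DD Finset

section

variable {ι κ : Type*} [Fintype κ] [Fintype ι] [DecidableEq ι] [DecidableEq κ]

theorem PS_cls (S : Finset (ι × ι)) {x : ι → κ → ℝ} {u : ι → ℝ}
    (h : ∀ B : Finset ι, B.Nonempty → (∀ e ∈ S, e.1 ∈ B ↔ e.2 ∈ B) →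
      |∑ c, ∏ i ∈ B, x i c| ≤ ∏ i ∈ B, u i) : |PS S x| ≤ ∏ i, u i := by
  classical
  set r := Relation.EqvGen.setoid fun i j => (i, j) ∈ S with hr
  have e : PS S x = ∏ q : Quotient r, ∑ c, ∏ i with Quotient.mk r i = q, x i c := by
    rw [prod_univ_sum, Fintype.piFinset_univ, PS]
    symm
    refine sum_of_injOn (fun b i => b (Quotient.mk r i)) (fun b _ b' _ h => funext fun q =>
      Quotient.inductionOn q fun i => congrFun h i) (fun _ _ => mem_univ _) (fun b _ hb => ?_)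
      fun b _ => ?_
    · refine mul_eq_zero_of_left (by_contra fun h => hb ⟨Quotient.lift b
        (Setoid.eqvGen_le (s := Setoid.ker b) fun i j hij => eqI_ne h (i, j) hij), by simp, rfl⟩) _
    · rw [eqI_one (b := fun i => b (Quotient.mk r i)) fun e he => congrArg b
        (Quotient.sound (Relation.EqvGen.rel _ _ he)), one_mul,
        ← prod_fiberwise univ (Quotient.mk r)]
      exact prod_congr rfl fun q _ => prod_congr rfl fun i hi => by
        simp only [(mem_filter.1 hi).2]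
  rw [e, abs_prod, ← prod_fiberwise univ (Quotient.mk r) u]
  refine prod_le_prod (fun _ _ => abs_nonneg _) fun q _ => h _
    (Quotient.inductionOn q fun i => ⟨i, by simp⟩) fun e he => ?_
  simp only [mem_filter, mem_univ, true_and,
    show Quotient.mk r e.1 = Quotient.mk r e.2 from Quotient.sound (Relation.EqvGen.rel _ _ he)]

theorem PS_le3 {S : Finset (ι × ι)} {x : ι → κ → ℝ} {u : ι → ℝ} (h0 : ∀ i, 0 ≤ u i)
    (h2 : ∀ i, ∑ c, x i c ^ 2 ≤ u i ^ 2) (h1 : ∀ i, |∑ c, x i c| ≤ u i) {p q : ι} (hq : q ≠ p)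
    (hS : (p, q) ∈ S ∨ (q, p) ∈ S) {t : ℝ} (t0 : 0 ≤ t) (ht : ∑ c, x p c ^ 2 ≤ t ^ 2 ∨
      (∀ c, |x p c| ≤ t) ∧ ∃ q' ≠ p, q' ≠ q ∧ ((p, q') ∈ S ∨ (q', p) ∈ S)) :
    |PS S x| ≤ t * ∏ i ∈ univ \ {p}, u i := by
  rw [← prod_update_of_mem (mem_univ p)]
  rcases ht with ht | ⟨ht, q', h3, h4, h5⟩
  · refine PS_le S (fun i => ?_) (fun i => ?_) fun i => ?_ <;> rcases eq_or_ne i p with rfl | e
    exacts [by simpa, by simpa [e] using h0 i, by simpa, by simpa [e] using h2 i,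
      Or.inr ⟨q, hq, hS⟩, Or.inl (by simpa [e] using h1 i)]
  refine PS_cls S fun B hB cl => ?_
  by_cases hp : p ∈ B
  · have m : ∀ q ≠ p, (p, q) ∈ S ∨ (q, p) ∈ S → q ∈ B \ {p} := fun q hq h => by
      simpa [hq] using h.elim (fun h => (cl _ h).1 hp) fun h => (cl _ h).2 hp
    have := blk_le (x := fun i c => |x i c|) h0 (by simpa using h2) ⟨q, m q hq hS⟩ fun i _ =>
      Or.inr (by
        rcases eq_or_ne i q with rfl | e
        exacts [⟨q', m q' h3 h5, h4⟩, ⟨q, m q hq hS, e.symm⟩])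
    rw [prod_update_of_mem hp]
    refine (abs_sum_le_sum_abs _ _).trans (le_trans ?_
      (mul_le_mul_of_nonneg_left ((le_abs_self _).trans this) t0))
    rw [mul_sum]
    refine sum_le_sum fun c _ => ?_
    rw [← mul_prod_erase _ _ hp, erase_eq, abs_mul, abs_prod]
    exact mul_le_mul_of_nonneg_right (ht c) (prod_nonneg fun _ _ => abs_nonneg _)
  · rw [prod_update_of_notMem hp]
    exact blk_le h0 h2 hB fun i _ => Or.inl (h1 i)

theorem PS_insert {S : Finset (ι × ι)} {e : ι × ι} (he : e ∉ S) (x : ι → κ → ℝ) :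
    PS (insert e S) x = ∑ c, PS S fun i c' => x i c' *
      ((if i = e.1 then if c' = c then 1 else 0 else 1) *
        if i = e.2 then if c' = c then 1 else 0 else 1) := by
  simp only [PS, eqI, prod_insert he, prod_mul_distrib, prod_ite_eq', mem_univ, if_true]
  rw [sum_comm]
  refine sum_congr rfl fun b _ => ?_
  simp only [← mul_sum, ite_mul, one_mul, zero_mul, sum_ite_eq, mem_univ, if_true, eq_comm (a := b e.2)]
  split_ifs <;> simp

end

variable {n m : ℕ}

/-- The pairs of energies. -/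
def em (n m : ℕ) : Fin m × Fin m ↪ (Fin n ⊕ Fin m) × (Fin n ⊕ Fin m) :=
  ⟨fun e => (.inr e.1, .inr e.2), fun _ _ h => by simpa [Prod.ext_iff] using h⟩

theorem em_apply (e : Fin m × Fin m) : em n m e = (.inr e.1, .inr e.2) := rfl

/-- The pairs of points that have to be in different cells. -/
def Pr (n : ℕ) (T : Finset (Fin m)) : Finset ((Fin n ⊕ Fin m) × (Fin n ⊕ Fin m)) :=
  univ.filter (fun e => e.1.isLeft ∧ e.2 ≠ e.1) ∪ ((T ×ˢ T).filter fun e => e.1 < e.2).map (em n m)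

/-- The indicator of different cells. -/
noncomputable def gA {κ : Type*} [DecidableEq κ] (T : Finset (Fin m)) (b : Fin n ⊕ Fin m → κ) : ℝ :=
  ∏ e ∈ Pr n T, (1 - if b e.1 = b e.2 then 1 else 0)

section

variable {κ : Type*} [DecidableEq κ] {T : Finset (Fin m)} {b : Fin n ⊕ Fin m → κ}

theorem gA_ne (h : gA T b ≠ 0) {i i' : Fin n ⊕ Fin m} (e : i ≠ i') (hi : ∀ k, i = .inr k → k ∈ T)
    (hi' : ∀ k, i' = .inr k → k ∈ T) : b i ≠ b i' := by
  have k : ∀ e ∈ Pr n T, b e.1 ≠ b e.2 := fun e he => by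
    simpa [sub_eq_zero] using prod_ne_zero_iff.1 h e he
  rcases i with i | i
  · exact k (_, _) (mem_union_left _ (by simpa using e.symm))
  rcases i' with i' | i'
  · exact (k (_, _) (mem_union_left _ (by simp))).symm
  rcases (show i ≠ i' from fun h => e (congrArg _ h)).lt_or_gt with l | l
  · exact k _ (mem_union_right _ (mem_map_of_mem _ (a := (i, i')) (by simp [hi, hi', l])))
  · exact (k _ (mem_union_right _ (mem_map_of_mem _ (a := (i', i)) (by simp [hi, hi', l])))).symm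

theorem abs_gA : |gA T b| ≤ 1 := by
  rw [gA, abs_prod]
  refine prod_le_one (fun _ _ => abs_nonneg _) fun e _ => ?_
  split_ifs <;> simp

variable [Fintype κ]

theorem PS_mat {P : Finset (Fin m × Fin m)} (hP : P ∈ mat T) (x : Fin n ⊕ Fin m → κ → ℝ) :
    PS (P.map (em n m)) x = (∏ e ∈ P, ∑ c, x (.inr e.1) c * x (.inr e.2) c) *
      ((∏ i, ∑ c, x (.inl i) c) * ∏ k ∈ univ \ su P, ∑ c, x (.inr k) c) := by
  induction P using Finset.induction_on generalizing x with
  | empty =>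
    simp only [PS, eqI, su, map_empty, prod_empty, one_mul, biUnion_empty, sdiff_empty]
    rw [← Fintype.prod_sum_type fun i => ∑ c, x i c, prod_univ_sum, Fintype.piFinset_univ]
  | insert e P he ih =>
    rw [mem_mat] at hP ih
    have m := fun e' (h : e' ∈ P) => mem_insert_of_mem (b := e) h
    have d : ∀ e' ∈ P, (e'.1 ≠ e.1 ∧ e'.1 ≠ e.2) ∧ e'.2 ≠ e.1 ∧ e'.2 ≠ e.2 := fun e' h => by
      simpa using hP.2 e (mem_insert_self _ _) e' (m e' h) fun h' => he (h' ▸ h)
    have l := (hP.1 e (mem_insert_self _ _)).2.ne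
    have e1 : univ \ su P = insert e.1 (insert e.2 (univ \ su (insert e P))) := by
      ext k
      simp only [Finset.mem_sdiff, mem_univ, mem_su, mem_insert, true_and]
      grind
    have n1 : ∀ k ∈ univ \ su (insert e P), k ≠ e.1 ∧ k ≠ e.2 := fun k hk => by
      simp only [Finset.mem_sdiff, mem_univ, mem_su, mem_insert, true_and] at hk
      grind
    rw [map_insert, PS_insert (by simpa using he), prod_insert he, mul_assoc, sum_mul]
    refine sum_congr rfl fun c _ => ?_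
    rw [ih ⟨fun e' h => hP.1 e' (m e' h), fun e' h e'' h' => hP.2 e' (m e' h) e'' (m e'' h')⟩, e1,
      prod_insert (by simpa [l] using fun h => (n1 _ h).1 rfl),
      prod_insert fun h => (n1 _ h).2 rfl, prod_congr rfl (g := fun e' => ∑ c,
        x (.inr e'.1) c * x (.inr e'.2) c) fun e' h => by simp [em_apply, d e' h],
      prod_congr (s₁ := univ \ su (insert e P)) rfl (g := fun k => ∑ c, x (.inr k) c)
        fun k h => by simp [em_apply, n1 k h]]
    simp [em_apply, l, l.symm]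
    ring

/-- The sum over different cells. -/
noncomputable def DA (T : Finset (Fin m)) (x : Fin n ⊕ Fin m → κ → ℝ) : ℝ :=
  ∑ b : Fin n ⊕ Fin m → κ, gA T b * ∏ i, x i (b i)

theorem DA_eq (x : Fin n ⊕ Fin m → κ → ℝ) : DA T x = ∑ P ∈ mat T, (-1) ^ P.card *
    PS (P.map (em n m)) x + ∑ S ∈ (Pr n T).powerset \ (mat T).image (·.map (em n m)),
      (-1) ^ S.card * PS S x := by
  have e : DA T x = ∑ S ∈ (Pr n T).powerset, (-1) ^ S.card * PS S x := by
    simp only [DA, gA, PS, sub_eq_add_neg, prod_one_add, prod_neg, sum_mul, mul_sum, mul_assoc]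
    exact sum_comm
  rw [e, ← sum_sdiff (s₁ := (mat T).image (·.map (em n m))) fun S hS => ?_, add_comm,
    sum_image (Finset.map_injective _).injOn]
  · simp only [card_map]
  · obtain ⟨P, hP, rfl⟩ := mem_image.1 hS
    exact mem_powerset.2 ((map_subset_map.2 (mem_powerset.1 (mem_filter.1 hP).1)).trans
      subset_union_right)

omit [DecidableEq κ] [Fintype κ] in
theorem rest {S : Finset ((Fin n ⊕ Fin m) × (Fin n ⊕ Fin m))}
    (h : S ∈ (Pr n T).powerset \ (mat T).image (·.map (em n m))) :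
    ∃ p q, q ≠ p ∧ ((p, q) ∈ S ∨ (q, p) ∈ S) ∧ ((∃ i, p = .inl i) ∨
      (∃ k ∈ T, p = .inr k) ∧ ∃ q' ≠ p, q' ≠ q ∧ ((p, q') ∈ S ∨ (q', p) ∈ S)) := by
  rw [Finset.mem_sdiff, mem_powerset] at h
  by_cases h1 : ∃ e ∈ S, e.1.isLeft ∧ e.2 ≠ e.1
  · obtain ⟨⟨p, q⟩, h1, h2, h3⟩ := h1
    exact ⟨p, q, h3, Or.inl h1, Or.inl (Sum.isLeft_iff.1 h2)⟩
  obtain ⟨P, hP, rfl⟩ := subset_map_iff.1 fun e he => (mem_union.1 (h.1 he)).resolve_left
    fun h => h1 ⟨e, he, (mem_filter.1 h).2⟩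
  have h2 : ¬ ∀ e ∈ P, ∀ e' ∈ P, e ≠ e' → Disjoint ({e.1, e.2} : Finset (Fin m)) {e'.1, e'.2} :=
    fun h' => h.2 (mem_image_of_mem _ (mem_filter.2 ⟨mem_powerset.2 hP, h'⟩))
  push Not at h2
  obtain ⟨⟨k, l⟩, a1, ⟨k', l'⟩, a2, a3, a4⟩ := h2
  have b1 := hP a1
  have b2 := hP a2
  have c1 : (.inr k, .inr l) ∈ P.map (em n m) := mem_map_of_mem _ a1
  have c2 : (.inr k', .inr l') ∈ P.map (em n m) := mem_map_of_mem _ a2
  simp only [mem_filter, mem_product] at b1 b2
  simp only [not_disjoint_iff, mem_insert, mem_singleton] at a4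
  simp only [ne_eq, Prod.mk.injEq] at a3
  obtain ⟨p, rfl | rfl, rfl | rfl⟩ := a4
  · exact ⟨_, _, by simpa using b1.2.ne', Or.inl c1, Or.inr ⟨⟨_, b1.1.1, rfl⟩, _,
      by simpa using b2.2.ne', by simpa using fun h => a3 ⟨rfl, h.symm⟩, Or.inl c2⟩⟩
  · exact ⟨_, _, by simpa using b1.2.ne', Or.inl c1, Or.inr ⟨⟨_, b1.1.1, rfl⟩, _,
      by simpa using b2.2.ne, by simpa using (b2.2.trans b1.2).ne, Or.inr c2⟩⟩
  · exact ⟨_, _, by simpa using b1.2.ne, Or.inr c1, Or.inr ⟨⟨_, b1.1.2, rfl⟩, _,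
      by simpa using b2.2.ne', by simpa using (b1.2.trans b2.2).ne', Or.inl c2⟩⟩
  · exact ⟨_, _, by simpa using b1.2.ne, Or.inr c1, Or.inr ⟨⟨_, b1.1.2, rfl⟩, _,
      by simpa using b2.2.ne, by simpa using fun h => a3 ⟨h.symm, rfl⟩, Or.inr c2⟩⟩

end

variable {X : Type*} {μ : ℝ → Measure Config} {A : ℝ → X → Prop} [∀ a, IsProbabilityMeasure (μ a)]
  {κ : ℝ → Type*} [∀ a, Fintype (κ a)] [∀ a, DecidableEq (κ a)]

theorem RS_PS {ι : Type*} [Fintype ι] [DecidableEq ι] {x : ∀ a, X → ι → κ a → Config → ℝ}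
    (bm : ∀ a h, A a h → ∀ i c, Bm (x a h i c)) (h1 : ∀ i, RB μ A fun a h σ => ∑ c, x a h i c σ)
    (h2 : ∀ i, RB μ A fun a h σ => ∑ c, x a h i c σ ^ 2) {S : Finset (ι × ι)} {p q : ι} (hq : q ≠ p)
    (hS : (p, q) ∈ S ∨ (q, p) ∈ S) (ht : (RS μ A fun a h σ => ∑ c, x a h p c σ ^ 2) ∨
      (RS μ A fun a h σ => ∑ c, x a h p c σ ^ 4) ∧ ∃ q' ≠ p, q' ≠ q ∧ ((p, q') ∈ S ∨ (q', p) ∈ S)) :
    RS μ A fun a h σ => PS S fun i c => x a h i c σ := by
  have b := RB.prod (univ \ {p}) fun i _ =>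
    ((RB.const (Bd.const 1)).add ((h1 i).mul (h1 i))).add (h2 i)
  have W : ∀ a h i σ, 0 ≤ ∑ c, x a h i c σ ^ 2 := fun _ _ _ _ => sum_nonneg fun _ _ => sq_nonneg _
  have k := fun a h σ t t0 ht => (PS_le3 (x := fun i c => x a h i c σ) (t := t)
    (u := fun i => 1 + (∑ c, x a h i c σ) * (∑ c, x a h i c σ) + ∑ c, x a h i c σ ^ 2)
    (fun i => by nlinarith [W a h i σ]) (fun i => by
      nlinarith [W a h i σ, mul_self_nonneg (∑ c, x a h i c σ)]) (fun i => abs_le.2
        ⟨by nlinarith [W a h i σ], by nlinarith [W a h i σ]⟩) hq hS t0 ht).trans (le_abs_self _)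
  rcases ht with ht | ⟨ht, h3⟩
  · exact (ht.sqrt.mul b).mono (fun a h hx => bm_PS S (bm a h hx)) fun a h _ σ =>
      k a h σ _ (Real.sqrt_nonneg _) (Or.inl (Real.sq_sqrt (W a h p σ)).ge)
  · refine (ht.sqrt.sqrt.mul b).mono (fun a h hx => bm_PS S (bm a h hx)) fun a h _ σ =>
      k a h σ _ (Real.sqrt_nonneg _) (Or.inr ⟨fun c => Real.abs_le_sqrt (Real.le_sqrt_of_sq_le ?_), h3⟩)
    rw [← pow_mul]
    exact single_le_sum (f := fun c => x a h p c σ ^ 4) (fun _ _ => by positivity) (mem_univ c)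

theorem sm_DA {x : ∀ a, X → Fin n ⊕ Fin m → κ a → Config → ℝ} {T : Finset (Fin m)}
    {Y : Fin n ⊕ Fin m → ℝ → X → Config → ℝ} {q : Fin m × Fin m → ℝ → X → ℝ}
    (bm : ∀ a h, A a h → ∀ i c, Bm (x a h i c)) (hY : ∀ i, RB μ A (Y i))
    (e1 : ∀ a h, A a h → ∀ σ, (∀ i, ∑ c, x a h (.inl i) c σ = Y (.inl i) a h σ) ∧ ∀ k,
      ∑ c, x a h (.inr k) c σ = if k ∈ T then Y (.inr k) a h σ else 1)
    (h2 : ∀ i, RB μ A fun a h σ => ∑ c, x a h i c σ ^ 2)
    (h3 : ∀ i, RS μ A fun a h σ => ∑ c, x a h (.inl i) c σ ^ 2)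
    (h4 : ∀ k ∈ T, RS μ A fun a h σ => ∑ c, x a h (.inr k) c σ ^ 4) (bq : ∀ e, Bd A (q e))
    (hq : ∀ e : Fin m × Fin m, e.1 ∈ T → e.2 ∈ T →
      RS μ A fun a h σ => ∑ c, x a h (.inr e.1) c σ * x a h (.inr e.2) c σ - q e a h) :
    Sm A fun a h => ∫ σ, DA T (fun i c => x a h i c σ) ∂μ a - Ex (fun e => q e a h)
      (fun B => ∫ σ, (∏ i, Y (.inl i) a h σ) * ∏ k ∈ B, Y (.inr k) a h σ ∂μ a) T := by
  have h1 : ∀ i, RB μ A fun a h σ => ∑ c, x a h i c σ := by
    refine fun i => RB.mono (v := fun a h σ => if ∀ k, i = .inr k → k ∈ T then Y i a h σ else 1) ?_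
      (fun a h hx => Bm.sum _ fun c _ => bm a h hx i c) fun a h hx σ => ?_
    · split_ifs
      exacts [hY i, RB.const (Bd.const 1)]
    · cases i <;> simp [e1 a h hx σ]
  have bP := fun a h hx S => ((bm_PS S (bm a h hx)).int (μ a)).const_mul ((-1) ^ S.card)
  refine ((Sm.sum (mat T) (u := fun P a h => ∫ σ, (-1) ^ P.card * PS (P.map (em n m))
    (fun i c => x a h i c σ) ∂μ a - (∏ e ∈ P, -q e a h) * ∫ σ, (∏ i, Y (.inl i) a h σ) *
      ∏ k ∈ T \ su P, Y (.inr k) a h σ ∂μ a) fun P hP => ?_).add (Sm.sum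
        ((Pr n T).powerset \ (mat T).image (·.map (em n m))) (u := fun S a h =>
          (-1) ^ S.card * ∫ σ, PS S (fun i c => x a h i c σ) ∂μ a) fun S hS => ?_)).congr
    (Eventually.of_forall fun a h hx => ?_)
  · have b := (RB.prod univ fun i _ => hY (.inl i)).mul (RB.prod (T \ su P) fun k _ => hY (.inr k))
    have t := fun e he => ((mem_mat.1 hP).1 e he).1
    have b1 := fun e he => (hq e (t e he).1 (t e he).2).1.add (RB.const (μ := μ) (bq e))
    simp only [sub_add_cancel] at b1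
    refine ((Bd.const ((-1) ^ P.card)).mul_sm ((RS.prod_sub P (fun e he => hq e (t e he).1 (t e he).2)
      b1 fun e _ => RB.const (bq e)).mul b).exp).congr (Eventually.of_forall fun a h hx => ?_)
    have := bP a h hx (P.map (em n m))
    rw [card_map] at this
    rw [← integral_const_mul, ← integral_const_mul, ← integral_sub this
      (((b.1 a h hx).int _).const_mul _)]
    refine integral_congr_ae (Eventually.of_forall fun σ => ?_)
    simp only [PS_mat hP, e1 a h hx σ, prod_neg, prod_ite_mem]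
    rw [show (univ \ su P) ∩ T = T \ su P by ext; simp [and_comm]]
    ring
  · obtain ⟨p, q, r1, r2, r3⟩ := rest hS
    refine (Bd.const _).mul_sm (RS_PS bm h1 h2 r1 r2 (r3.imp ?_ (And.imp_left ?_))).exp
    · rintro ⟨i, rfl⟩
      exact h3 i
    · rintro ⟨k, hk, rfl⟩
      exact h4 k hk
  · have i1 := fun P => bP a h hx (Finset.map (em n m) P)
    simp only [card_map] at i1
    simp only [DA_eq, Ex_eq, sum_sub_distrib, ← integral_const_mul]
    rw [integral_add (integrable_finsetSum _ fun P _ => i1 P)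
      (integrable_finsetSum _ fun S _ => bP a h hx S), integral_finsetSum _ fun P _ => i1 P,
      integral_finsetSum _ fun S _ => bP a h hx S]
    ring

end Vale.Agent.P144DR
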