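import Vale.Agent.P144DR.Ct
import Vale.Agent.P144DR.Ps

/-!
The smeared correlations as sums over cells.
-/

namespace Vale.Agent.P144DR

open Filter Topology MeasureTheory Vale.Agent.P144 Vale.Agent.P144Z Vale.Agent.P144F
open Vale.Agent.P144DD Finset

theorem to_sum {ι : Type*} [Fintype ι] [DecidableEq ι] {U : ι → ℂ → Config → ℝ} {b : ι → ℝ}
    (hU : ∀ i, Ker (U i) (b i)) (μ : Measure Config) [IsProbabilityMeasure μ] {h : ι → ℂ → ℝ}
    (hm : ∀ i, Mi (h i)) {g : ℂ → Site} (hg : Measurable g) {I : Finset Site}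
    (hI : ∀ i z, h i z ≠ 0 → g z ∈ I) (u : (ι → Site) → ℝ) :
    (Integrable fun z : ι → ℂ => (∏ i, h i (z i)) * (u (fun i => g (z i)) * kc μ U z)) ∧
      ∫ z : ι → ℂ, (∏ i, h i (z i)) * (u (fun i => g (z i)) * kc μ U z) =
        ∫ σ, ∑ c : ι → I, u (fun i => c i) * ∏ i, fd (U i) (pg g (h i) (c i)) σ ∂μ := by
  have mi := fun i c => mi_pg (hm i) hg c
  have pt : ∀ z : ι → ℂ, (∏ i, h i (z i)) * (u (fun i => g (z i)) * kc μ U z) =
      ∑ c : ι → I, u (fun i => c i) * ((∏ i, pg g (h i) (c i) (z i)) * kc μ U z) := fun z => by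
    by_cases hz : ∀ i, h i (z i) ≠ 0
    · rw [sum_eq_single (fun i => ⟨g (z i), hI i _ (hz i)⟩) (fun c _ hc => ?_) (by simp)]
      · simp only [pg, if_true]
        ring
      · obtain ⟨i, hi⟩ := Function.ne_iff.1 hc
        rw [prod_eq_zero (mem_univ i) (if_neg fun e => hi (Subtype.ext e.symm)), zero_mul, mul_zero]
    · push Not at hz
      obtain ⟨i, hi⟩ := hz
      rw [prod_eq_zero (mem_univ i) hi, zero_mul]
      refine (sum_eq_zero fun c _ => ?_).symm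
      rw [prod_eq_zero (mem_univ i) (by simp only [pg, hi, ite_self]), zero_mul, mul_zero]
  have i := fun c : ι → I => (int_kc hU μ (int_pr fun i => mi i (c i))).const_mul (u fun i => c i)
  simp only [pt]
  refine ⟨integrable_finsetSum _ fun c _ => i c, ?_⟩
  rw [integral_finsetSum _ fun c _ => i c, integral_finsetSum _ fun c _ =>
    ((Bm.prod _ fun i _ => (hU i).bm (mi i (c i))).int μ).const_mul _]
  refine sum_congr rfl fun c _ => ?_
  rw [integral_const_mul, integral_const_mul, prod_fd hU μ fun i => mi i (c i)]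

theorem QQ_diag {U U' : ℂ → Config → ℝ} {b b' : ℝ} {f f' : ℂ → ℝ} {g : ℂ → Site} {I : Finset Site}
    (hU : Ker U b) (hU' : Ker U' b') (h : Mi f) (h' : Mi f') (hg : Measurable g)
    (hI : ∀ z, f z ≠ 0 → g z ∈ I) (A : ℝ) (σ : Config) :
    QQ U U' f f' g (fun u u' => if u = u' then A else 0) σ =
      A * ∑ u : I, fd U (pg g f u) σ * fd U' (pg g f' u) σ := by
  rw [QQ_eq hU hU' h h' hg (B := |A|) (fun u u' => by split_ifs <;> simp) hI, ← sum_coe_sort, mul_sum]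
  refine sum_congr rfl fun u _ => ?_
  rw [mul_left_comm, fd, fd, fd, ← integral_const_mul A]
  simp [pg, eq_comm, mul_assoc]

variable {n m : ℕ}

/-- The kernels, with the energies in `T` only. -/
noncomputable def kT (μ : Measure Config) (j : Fin m → Fin 2) (a : ℝ) (T : Finset (Fin m)) :
    Fin n ⊕ Fin m → ℂ → Config → ℝ :=
  Sum.elim (fun _ => S a) fun k => if k ∈ T then En μ (j k) a else fun _ _ => 1

theorem ker_kT (μ : Measure Config) [IsProbabilityMeasure μ] (j : Fin m → Fin 2) {a : ℝ}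
    (ha : 0 < a) (T : Finset (Fin m)) : ∃ b : Fin n ⊕ Fin m → ℝ, ∀ i, Ker (kT μ j a T i) (b i) := by
  refine Classical.skolem.1 ?_
  rintro (i | i)
  · exact ⟨_, ker_S ha⟩
  · simp only [kT, Sum.elim_inr]
    split_ifs
    exacts [⟨_, ker_En μ _ ha⟩, ⟨_, ker_one⟩]

theorem corr_sub {E : (Config → ℝ) → ℝ} {μ : Measure Config} (h : ∀ F, E F = ∫ σ, F σ ∂μ) (a : ℝ)
    (j : Fin m → Fin 2) (z : Fin n ⊕ Fin m → ℂ) (T : Finset (Fin m)) :
    corr a E (sub (pts j (sP n m z)) T) = kc μ (kT μ j a T) z := by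
  simp only [corr_kc h, kc, Fintype.prod_sum_type, kern, kT, Sum.elim_inl, Sum.elim_inr, ite_apply,
    prod_ite_mem, univ_inter]
  refine integral_congr_ae (Eventually.of_forall fun σ => congrArg₂ _ rfl ?_)
  conv_rhs => rw [← map_orderEmbOfFin_univ T rfl, prod_map]
  rfl

/-- The moments of the smeared fields. -/
noncomputable def Mo (μ : Measure Config) (j : Fin m → Fin 2) (a : ℝ) (h : Fin n ⊕ Fin m → ℂ → ℝ)
    (B : Finset (Fin m)) : ℝ :=
  ∫ σ, (∏ i, fd (kern μ j a (.inl i)) (h (.inl i)) σ) *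
    ∏ k ∈ B, fd (kern (n := n) μ j a (.inr k)) (h (.inr k)) σ ∂μ

theorem int_ren {E : (Config → ℝ) → ℝ} {μ : Measure Config} [IsProbabilityMeasure μ]
    (hE : ∀ F, E F = ∫ σ, F σ ∂μ) {a : ℝ} (ha : 0 < a) (κ : Fin 2 → Fin 2 → ℝ) (j : Fin m → Fin 2)
    {h : Fin n ⊕ Fin m → ℂ → ℝ} {K : Set ℂ} {R : ℝ} (hR : ∀ z ∈ K, ‖z‖ ≤ R) (hh : ∀ i, Tb K (h i)) :
    (Integrable fun z => (∏ i, h i (z i)) * ren a E κ (pts j (sP n m z))) ∧
      ∫ z, (∏ i, h i (z i)) * ren a E κ (pts j (sP n m z)) =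
        Ex (fun e => κ (j e.1) (j e.2) * dh a (h (.inr e.1)) (h (.inr e.2))) (Mo μ j a h) univ := by
  have cv := fun i z hz => mem_bx ha (hR z ((hh i).2.2 z hz)) (Nat.le_ceil _)
  have mi := fun i => (hh i).mi ha (cv i)
  choose b hb using ker_kT (n := n) μ j ha
  have k := fun P : Finset (Fin m × Fin m) => to_sum (hb (univ \ su P)) μ mi (meas_fl a) cv
    (eqI (P.map (em n m)))
  have e : ∀ z, (∏ i, h i (z i)) * ren a E κ (pts j (sP n m z)) = ∑ P ∈ mat univ,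
      (∏ e ∈ P, -(κ (j e.1) (j e.2) * (a ^ 2)⁻¹)) * ((∏ i, h i (z i)) * (eqI (P.map (em n m))
        (fun i => fl a (z i)) * kc μ (kT μ j a (univ \ su P)) z)) := fun z => by
    rw [show ren a E κ (pts j (sP n m z)) = Ex (fun e : Fin m × Fin m => κ (j e.1) (j e.2) *
      dl a (z (.inr e.1)) (z (.inr e.2))) (fun T => kc μ (kT μ j a T) z) univ from
        congrArg (Ex _ · _) (funext (corr_sub hE a j z)), Ex_eq, mul_sum]
    refine sum_congr rfl fun P _ => ?_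
    rw [mul_left_comm _ (∏ i, _), ← mul_assoc (∏ e ∈ P, _), eqI, prod_map, ← prod_mul_distrib]
    refine congrArg _ (congrArg₂ _ (prod_congr rfl fun e _ => ?_) rfl)
    by_cases h : fl a (z (.inr e.1)) = fl a (z (.inr e.2)) <;> simp [dl, em_apply, h]
  simp only [e]
  refine ⟨integrable_finsetSum _ fun P _ => (k P).1.const_mul _, ?_⟩
  rw [integral_finsetSum _ fun P _ => (k P).1.const_mul _, Ex_eq]
  refine sum_congr rfl fun P hP => ?_
  rw [integral_const_mul, (k P).2, Mo, ← integral_const_mul, ← integral_const_mul]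
  refine integral_congr_ae (Eventually.of_forall fun σ => ?_)
  have := PS_mat hP fun i (c : bx ⌈R / a⌉₊) => fd (kT μ j a (univ \ su P) i) (pg (fl a) (h i) c) σ
  simp only [PS, eqI, ← Subtype.val_inj, fun i => (sum_coe_sort _ fun c => fd (kT μ j a (univ \ su P) i)
    (pg (fl a) (h i) c) σ).trans (fd_pg (hb _ i) (mi i) (meas_fl a) (cv i) σ)] at this
  simp only [eqI]
  rw [this, ← mul_assoc, ← prod_mul_distrib]
  refine congrArg₂ _ (prod_congr rfl fun e he => ?_) (congrArg₂ _ rfl (prod_congr rfl fun k hk => ?_))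
  · have h1 : e.1 ∈ su P := mem_su.2 ⟨e, he, Or.inl rfl⟩
    have h2 : e.2 ∈ su P := mem_su.2 ⟨e, he, Or.inr rfl⟩
    rw [dh, QQ_diag ker_one ker_one (mi _) (mi _) (meas_fl a) (cv _)]
    simp [kT, h1, h2, fd, mul_assoc]
  · simp only [kT, kern, Sum.elim_inr, if_pos hk]

/-- The coarse cells. -/
noncomputable def Ic (k : ℕ) (j : Site) (R s : ℝ) : Finset Site := (bx ⌈R / s⌉₊).image (cg k j)

theorem cg_zd {k : ℕ} (hk : 0 < k) {j u v : Site} (h : cg k j u = cg k j v) : zd u v ≤ k := by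
  have hk' : (0 : ℤ) < k := by exact_mod_cast hk
  have e : ∀ u v j : ℤ, (u - j) / k = (v - j) / k → (u - v).natAbs ≤ k := fun u v j h => by
    have e1 := Int.mul_ediv_add_emod (u - j) k
    have e2 := Int.mul_ediv_add_emod (v - j) k
    have e3 := Int.emod_lt_of_pos (u - j) hk'
    have e4 := Int.emod_nonneg (v - j) hk'.ne'
    have e5 := Int.emod_lt_of_pos (v - j) hk'
    have e6 := Int.emod_nonneg (u - j) hk'.ne'
    rw [h] at e1
    omega
  exact max_le (e _ _ _ (congrArg Prod.fst h)) (e _ _ _ (congrArg Prod.snd h))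

theorem meas_cg (k : ℕ) (j : Site) (s : ℝ) : Measurable fun v => cg k j (fl s v) :=
  (measurable_of_countable (cg k j)).comp (meas_fl s)

section

variable {X : Type*} {μ : ℝ → Measure Config} [∀ a, IsProbabilityMeasure (μ a)] {A : ℝ → X → Prop}
  {T : ℝ → ℂ → Config → ℝ} {b : ℝ → ℝ} {α R θ : ℝ} {K : Set ℂ} {f : X → ℂ → ℝ} {k : ℕ} {r j : Site}

theorem rb_fd (hR : ∀ z ∈ K, ‖z‖ ≤ R) (hT : ∀ a > 0, Ker (T a) (b a)) (hM : MK μ T α K)
    (hA : ∀ a x, A a x → 0 < a ∧ Tb K (f x)) : RB μ A fun a x => fd (T a) (f x) := by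
  have cv := fun a x hx s hs z hz => mem_bx (s := s) hs (hR z ((hA a x hx).2.2.2 z hz)) (Nat.le_ceil _)
  refine RB.of_even (fun a x hx => (hT a (hA a x hx).1).bm ((hA a x hx).2.mi one_pos
    (cv a x hx 1 one_pos))) fun q hq => Bd.of_le fun η hη => ?_
  have q0 : (0 : ℝ) < q := by positivity
  obtain ⟨B, ρ, B0, ρ0, hM⟩ := hM q hq (η / (2 * q)) (by positivity)
  refine ⟨((bx ⌈R / ρ⌉₊).card * (B * (ρ ^ 2 / ρ ^ α))) ^ (2 * q), hM.mono fun a h x hx => ?_⟩
  obtain ⟨a0, t⟩ := hA a x hx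
  simp only [(hT a a0).cells t ρ0 (cv a x hx ρ ρ0)]
  rw [abs_of_nonneg (integral_nonneg fun _ => (even_two_mul q).pow_nonneg _)]
  refine (int_sum _ (fun c => (hT a a0).bm (t.mi_pc ρ0 c).1) _ hq fun c _ =>
    h ρ ρ0 le_rfl _ c t).trans_eq ?_
  rw [show -η = -(η / (2 * q)) * (2 * q : ℕ) by push_cast; field_simp, Real.rpow_mul_natCast a0.le]
  ring

theorem mom (hR : ∀ z ∈ K, ‖z‖ ≤ R) (R0 : 0 < R) (hT : ∀ a > 0, Ker (T a) (b a)) (hM : MK μ T α K)
    (hθ : 0 < θ) (hA : ∀ a x, A a x → 0 < a ∧ Tb K (f x) ∧ ∀ v, f x v ≠ 0 → col k (fl (a ^ θ) v) = r)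
    {p q : ℕ} (hp : p ≠ 0) (hq : q ≠ 0) {t η : ℝ} (ht : t ≤ (2 - α) * p - 1) (hη : 0 < η) :
    ∃ C, ∀ᶠ a in 𝓝[>] (0 : ℝ), ∀ x, A a x → |∫ σ, (∑ c : Ic k j R (a ^ θ), (fd (T a)
      (pg (fun v => cg k j (fl (a ^ θ) v)) (f x) c) σ ^ p) ^ 2) ^ q ∂μ a| ≤
        C * a ^ (θ * t * (2 * q) - η) := by
  have q0 : (0 : ℝ) < q := by positivity
  have p0 : (0 : ℝ) < p := by positivity
  obtain ⟨B, ρ, B0, ρ0, hM⟩ := hM (p * q) (by positivity) (η / (2 * (p * q))) (by positivity)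
  refine ⟨((2 * R + 3) * B ^ p) ^ (2 * q), ?_⟩
  filter_upwards [hM, Ioo_mem_nhdsGT one_pos, (tendsto_rp hθ).eventually (ge_mem_nhds ρ0)]
    with a h ⟨a0, a1⟩ e1 x hx
  obtain ⟨-, t1, t2⟩ := hA a x hx
  have s0 := Real.rpow_pos_of_pos a0 θ
  have s1 := Real.rpow_le_one a0.le a1.le hθ.le
  have e2 : a ^ (θ * t * (2 * q) - η) =
      ((a ^ θ) ^ t * (a ^ (-(η / (2 * (p * q))))) ^ p) ^ (2 * q) := by
    rw [← Real.rpow_mul a0.le, ← Real.rpow_mul_natCast a0.le, ← Real.rpow_add a0,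
      ← Real.rpow_mul_natCast a0.le]
    congr 1
    push_cast
    field_simp
    ring
  rw [e2]
  generalize a ^ θ = s at *
  have w0 := Real.rpow_pos_of_pos a0 (-(η / (2 * (p * q))))
  generalize a ^ (-(η / (2 * (p * q)))) = w at *
  have mi := t1.mi s0 fun z hz => mem_bx s0 (hR z (t1.2.2 z hz)) (Nat.le_ceil _)
  rw [abs_of_nonneg (integral_nonneg fun _ => by positivity)]
  refine (int_sq univ (fun c => ((hT a a0).bm (mi_pg mi (meas_cg k j s) _)).pow p) _ hq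
    (Y := (B * w * (s ^ 2 / s ^ α)) ^ (2 * (p * q))) fun c _ => ?_).trans ?_
  · obtain ⟨c', hc⟩ : ∃ c', ∀ v, pg (fun v => cg k j (fl s v)) (f x) c v ≠ 0 → fl s v = c' := by
      by_cases e : ∃ v, pg (fun v => cg k j (fl s v)) (f x) c v ≠ 0
      · obtain ⟨v, hv⟩ := e
        exact ⟨_, fun w hw => cg_inj ((t2 w (pg_ne hw).2).trans (t2 v (pg_ne hv).2).symm)
          ((pg_ne hw).1.trans (pg_ne hv).1.symm)⟩
      · exact ⟨0, fun v hv => absurd ⟨v, hv⟩ e⟩
    have := h s s0 e1 (pg (fun v => cg k j (fl s v)) (f x) c) c' (by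
      rw [pg_eq]
      exact tb_mul t1 (meas_cg k j s) (H := fun u => if c = u then 1 else 0)
        fun u => by split_ifs <;> simp)
    rw [show pc s (pg (fun v => cg k j (fl s v)) (f x) c) c' = _ from funext fun v => by
      unfold pc
      split_ifs with e
      exacts [rfl, (by_contra fun e' => e (hc v e') : pg _ _ _ v = 0).symm]] at this
    simpa only [← pow_mul, mul_left_comm p] using this
  · have k1 : ((univ : Finset (Ic k j R s)).card : ℝ) ≤ (2 * ⌈R / s⌉₊ + 1) ^ 2 := by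
      rw [card_univ, Fintype.card_coe]
      exact_mod_cast card_image_le.trans_eq (card_bx _)
    refine (mul_le_mul_of_nonneg_right (pow_le_pow_left₀ (by positivity) k1 _)
      (by positivity)).trans ?_
    rw [← pow_mul, mul_left_comm 2 p, pow_mul _ p, ← mul_pow, ← mul_pow]
    refine pow_le_pow_left₀ (by positivity) ?_ _
    have k2 : (s ^ 2 / s ^ α) ^ p ≤ s * s ^ t := by
      rw [← Real.rpow_two, ← Real.rpow_sub s0, ← Real.rpow_mul_natCast s0.le, mul_comm s,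
        ← Real.rpow_add_one s0.ne']
      exact Real.rpow_le_rpow_of_exponent_ge s0 s1 (by linarith)
    have k3 : (2 * ⌈R / s⌉₊ + 1 : ℝ) * s ≤ 2 * R + 3 := by linarith [ceil_le R0.le s0]
    rw [mul_pow, mul_pow]
    calc _ ≤ (2 * ⌈R / s⌉₊ + 1 : ℝ) * (B ^ p * w ^ p * (s * s ^ t)) := by gcongr
      _ = (2 * ⌈R / s⌉₊ + 1 : ℝ) * s * B ^ p * (s ^ t * w ^ p) := by ring
      _ ≤ _ := by gcongr

theorem cells (hR : ∀ z ∈ K, ‖z‖ ≤ R) (R0 : 0 < R) (hT : ∀ a > 0, Ker (T a) (b a)) (hM : MK μ T α K)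
    (h1 : α ≤ 1) (hθ : 0 < θ)
    (hA : ∀ a x, A a x → 0 < a ∧ Tb K (f x) ∧ ∀ v, f x v ≠ 0 → col k (fl (a ^ θ) v) = r) :
    (RB μ A fun a x σ => ∑ c : Ic k j R (a ^ θ),
      fd (T a) (pg (fun v => cg k j (fl (a ^ θ) v)) (f x) c) σ ^ 2) ∧
    (α ≤ 1 / 2 → RS μ A fun a x σ => ∑ c : Ic k j R (a ^ θ),
      fd (T a) (pg (fun v => cg k j (fl (a ^ θ) v)) (f x) c) σ ^ 2) ∧
    RS μ A fun a x σ => ∑ c : Ic k j R (a ^ θ),
      fd (T a) (pg (fun v => cg k j (fl (a ^ θ) v)) (f x) c) σ ^ 4 := by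
  have bm : ∀ p : ℕ, Mb A fun a x σ => ∑ c : Ic k j R (a ^ θ),
      fd (T a) (pg (fun v => cg k j (fl (a ^ θ) v)) (f x) c) σ ^ p := fun p a x hx => by
    obtain ⟨a0, t, -⟩ := hA a x hx
    exact Bm.sum _ fun c _ => ((hT a a0).bm (mi_pg (t.mi one_pos fun z hz =>
      mem_bx one_pos (hR z (t.2.2 z hz)) (Nat.le_ceil _)) (meas_cg _ _ _) _)).pow p
  have b1 := RB.of_even (μ := μ) (bm 2) fun q hq => Bd.of_le fun η hη => by
    simpa using mom (j := j) hR R0 hT hM hθ hA one_ne_zero (q := 2 * q) (by omega) (t := 0)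
      (by simp; linarith) hη
  refine ⟨b1, fun h => ⟨b1, ?_⟩, (b1.mul b1).mono (bm 4) fun a x _ σ => ?_, ?_⟩
  · obtain ⟨C, k⟩ := mom (j := j) hR R0 hT hM hθ hA one_ne_zero one_ne_zero (t := 1 / 2)
      (by simp; linarith) (half_pos hθ)
    refine Sm.of_le (C := C) (t := θ * (1 / 2) * (2 * (1 : ℕ)) - θ / 2) (by simp; linarith)
      (k.mono fun a k x hx => le_of_eq_of_le ?_ (k x hx))
    simp only [pow_one]
    exact congrArg _ (integral_congr_ae (Eventually.of_forall fun σ =>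
      abs_of_nonneg (by positivity)))
  · rw [← sq, abs_sq, abs_of_nonneg (by positivity)]
    simpa only [← pow_mul] using sum_sq_le_sq_sum_of_nonneg fun _ _ => sq_nonneg _
  · obtain ⟨C, k⟩ := mom (j := j) hR R0 hT hM hθ hA two_ne_zero one_ne_zero (t := 1 / 2)
      (by push_cast; linarith) (half_pos hθ)
    refine Sm.of_le (C := C) (t := θ * (1 / 2) * (2 * (1 : ℕ)) - θ / 2) (by simp; linarith)
      (k.mono fun a k x hx => le_of_eq_of_le ?_ (k x hx))
    simp only [pow_one, ← pow_mul]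
    exact congrArg _ (integral_congr_ae (Eventually.of_forall fun σ =>
      abs_of_nonneg (by positivity)))

end

end Vale.Agent.P144DR
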