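import Vale.Agent.P144DR.Md

/-!
The smeared correlations in terms of the correlations of separated points.
-/

namespace Vale.Agent.P144DR

open Filter Topology MeasureTheory Vale.Agent.P144 Vale.Agent.P144Z Vale.Agent.P144F
open Vale.Agent.P144DD Finset

/-- The indicator of a cell of size one. -/
noncomputable def ph (v : ℂ) : ℝ := if fl 1 v - 0 = 0 then 1 else 0

theorem int_ph : ∫ v, ph v = 1 := by
  simpa [ph] using (int_lat one_pos (H := fun u => if u = 0 then 1 else 0)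
    (summable_of_ne_finset_zero (s := {0}) fun u hu => if_neg (by simpa using hu)) 0).2

variable {n m : ℕ} {K : Set ℂ} {R θ : ℝ} {k : ℕ} {r : Fin n ⊕ Fin m → Site} {c₀ : Site}

/-- The test functions, with the energies in `T` only. -/
noncomputable def hT (T : Finset (Fin m)) (h : Fin n ⊕ Fin m → ℂ → ℝ) : Fin n ⊕ Fin m → ℂ → ℝ :=
  Sum.elim (fun i => h (.inl i)) fun k => if k ∈ T then h (.inr k) else ph

theorem tb_hT (hR : ∀ z ∈ K, ‖z‖ ≤ R) (R2 : 2 ≤ R) {h : Fin n ⊕ Fin m → ℂ → ℝ}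
    (hh : ∀ i, Tb K (h i)) (T : Finset (Fin m)) (i : Fin n ⊕ Fin m) :
    Tb {z | ‖z‖ ≤ R} (hT T h i) := by
  have k := fun i => (⟨(hh i).1, (hh i).2.1, fun z hz => hR z ((hh i).2.2 z hz)⟩ :
    Tb {z | ‖z‖ ≤ R} (h i))
  rcases i with i | i
  · exact k _
  simp only [hT, Sum.elim_inr]
  split_ifs
  · exact k _
  refine ⟨(measurable_of_countable fun u : Site => if u - 0 = 0 then (1 : ℝ) else 0).comp (meas_fl 1),
    fun z => by unfold ph; split_ifs <;> simp, fun z hz => le_trans ?_ R2⟩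
  simpa using cell_near (z := z) (w := 0) one_pos (by simpa [ph, fl_zero] using hz)

/-- The test functions with supports in cells of given colours. -/
def A0 (K : Set ℂ) (k : ℕ) (θ : ℝ) (r : Fin n ⊕ Fin m → Site) (a : ℝ)
    (h : Fin n ⊕ Fin m → ℂ → ℝ) : Prop :=
  0 < a ∧ ∀ i, Tb K (h i) ∧ ∀ v, h i v ≠ 0 → col k (fl (a ^ θ) v) = r i

/-- The contribution of the points in different cells. -/
noncomputable def De (μ : Measure Config) (j : Fin m → Fin 2) (a : ℝ) (g : ℂ → Site)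
    (h : Fin n ⊕ Fin m → ℂ → ℝ) (T : Finset (Fin m)) : ℝ :=
  ∫ z : Fin n ⊕ Fin m → ℂ, (∏ i, hT T h i (z i)) * (gA T (fun i => g (z i)) * kc μ (kT μ j a T) z)

/-- The pairs of energies in the same cell. -/
noncomputable def Qe (μ : Measure Config) (j : Fin m → Fin 2) (a : ℝ) (k : ℕ) (c₀ : Site) (s : ℝ)
    (h : Fin n ⊕ Fin m → ℂ → ℝ) (e : Fin m × Fin m) : Config → ℝ :=
  QQ (En μ (j e.1) a) (En μ (j e.2) a) (h (.inr e.1)) (h (.inr e.2)) (fl s)
    fun u u' => if cg k c₀ u = cg k c₀ u' then 1 else 0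

variable {μ μ₀ : ℝ → Measure Config} [∀ a, IsProbabilityMeasure (μ a)]
  [∀ a, IsProbabilityMeasure (μ₀ a)] {j : Fin m → Fin 2}

theorem model (hR : ∀ z ∈ K, ‖z‖ ≤ R) (R2 : 2 ≤ R) (hθ : 0 < θ) (hk : 0 < k)
    (hM : ∀ i, MK μ (fun a => kern (μ a) j a i) (dm n m i) K)
    (hC : ∀ d d', CV μ (fun a => En (μ a) d a) (fun a => En (μ a) d' a) K) :
    (∀ e, Bd (A0 K k θ r) fun a h => ∫ σ, Qe (μ a) j a k c₀ (a ^ θ) h e σ ∂μ a) ∧
    (∀ B, Bd (A0 K k θ r) fun a h => Mo (μ a) j a h B) ∧ ∀ T, Sm (A0 K k θ r) fun a h =>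
      De (μ a) j a (fun v => cg k c₀ (fl (a ^ θ) v)) h T -
        Ex (fun e => ∫ σ, Qe (μ a) j a k c₀ (a ^ θ) h e σ ∂μ a) (Mo (μ a) j a h) T := by
  have R0 : 0 < R := by linarith
  have kk := fun i a ha => ker_kern (n := n) (μ a) j (a := a) ha i
  have hY := fun i => rb_fd (A := A0 K k θ r) (f := fun h => h i) hR (kk i) (hM i)
    fun a h hx => ⟨hx.1, (hx.2 i).1⟩
  have cl := fun i => cells (A := A0 K k θ r) (f := fun h => h i) (j := c₀) hR R0 (kk i) (hM i)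
    (by cases i <;> norm_num [dm]) hθ fun a h hx => ⟨hx.1, hx.2 i⟩
  have cv : ∀ {a K f}, 0 < a → (∀ z ∈ K, ‖z‖ ≤ R) → Tb K f → Mi f ∧ ∀ z, f z ≠ 0 →
      cg k c₀ (fl (a ^ θ) z) ∈ Ic k c₀ R (a ^ θ) := fun ha hR h =>
    have c := fun z hz => mem_bx (Real.rpow_pos_of_pos ha θ) (hR z (h.2.2 z hz)) (Nat.le_ceil _)
    ⟨h.mi (Real.rpow_pos_of_pos ha θ) c, fun z hz => mem_image_of_mem _ (c z hz)⟩
  have eQ := fun a h (hx : A0 K k θ r a h) (e : Fin m × Fin m) σ => (QQ_diag (kk (.inr e.1) a hx.1)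
    (kk (.inr e.2) a hx.1) (cv hx.1 hR (hx.2 (.inr e.1)).1).1 (cv hx.1 hR (hx.2 (.inr e.2)).1).1
    (meas_cg k c₀ (a ^ θ)) (cv hx.1 hR (hx.2 _).1).2 1 σ).trans (one_mul _)
  have w : ∀ u u', |if cg k c₀ u = cg k c₀ u' then (1 : ℝ) else 0| ≤ 1 := fun u u' => by
    split_ifs <;> simp
  have bQ : ∀ e, RB μ (A0 K k θ r) fun a h => Qe (μ a) j a k c₀ (a ^ θ) h e := fun e => by
    refine ((cl (.inr e.1)).1.add (cl (.inr e.2)).1).mono (fun a h hx => (ker_QQ (ker_En _ _ hx.1)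
      (ker_En _ _ hx.1) (cv hx.1 hR (hx.2 _).1).1 (meas_fl _) w).elim fun c k =>
        k.bm (cv hx.1 hR (hx.2 _).1).1) fun a h hx σ => (congrArg abs (eQ a h hx e σ)).trans_le ?_
    rw [← sum_add_distrib]
    refine (abs_sum_le_sum_abs _ _).trans ((sum_le_sum fun c _ => ?_).trans (le_abs_self _))
    exact (fun u v : ℝ => abs_le.2 ⟨by nlinarith [sq_nonneg (u + v)],
      by nlinarith [sq_nonneg (u - v)]⟩ : ∀ u v : ℝ, |u * v| ≤ u ^ 2 + v ^ 2) _ _
  refine ⟨fun e => (bQ e).exp, fun B => ((RB.prod univ fun i _ => hY (.inl i)).mul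
    (RB.prod B fun k _ => hY (.inr k))).exp, fun T => ?_⟩
  have c1 := fun a h (hx : A0 K k θ r a h) i =>
    cv hx.1 (fun _ h => h) (tb_hT hR R2 (fun i => (hx.2 i).1) T i)
  have s1 := fun a h (hx : A0 K k θ r a h) i σ => (ker_kT (μ a) j hx.1 T).elim fun b hb =>
    (sum_coe_sort _ fun c => fd (kT (μ a) j a T i) (pg _ (hT T h i) c) σ).trans
      (fd_pg (hb i) (c1 a h hx i).1 (meas_cg k c₀ _) (c1 a h hx i).2 σ)
  have bm := fun a h (hx : A0 K k θ r a h) i (c : Ic k c₀ R (a ^ θ)) => (ker_kT (μ a) j hx.1 T).elim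
    fun b hb => (hb i).bm (mi_pg (c1 a h hx i).1 (meas_cg k c₀ (a ^ θ)) c)
  refine (sm_DA (κ := fun a => Ic k c₀ R (a ^ θ)) (T := T) bm hY (fun a h hx σ =>
    ⟨fun i => s1 a h hx _ σ, fun l => (s1 a h hx _ σ).trans ?_⟩) ?_
    (fun i => (cl (.inl i)).2.1 (by norm_num [dm])) (fun l hl => ?_) (fun e => (bQ e).exp)
    fun e h1 h2 => ?_).congr (Eventually.of_forall fun a h hx => ?_)
  · simp only [kT, hT, Sum.elim_inr]
    split_ifs
    exacts [rfl, by simp [fd, int_ph]]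
  · rintro (i | l)
    · exact (cl (.inl i)).1
    by_cases hl : l ∈ T
    · simpa only [kT, hT, kern, Sum.elim_inr, if_pos hl] using (cl (.inr l)).1
    refine (RB.const (Bd.const 1)).mono (fun a h hx => Bm.sum _ fun c _ => (bm a h hx _ c).pow 2)
      fun a h hx σ => ?_
    rw [abs_of_nonneg (by positivity)]
    refine (sum_sq_le_sq_sum_of_nonneg fun c _ => ?_).trans_eq ?_
    · simp only [kT, hT, Sum.elim_inr, if_neg hl]
      exact integral_nonneg fun v => by simp only [pg, ph]; positivity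
    · rw [s1 a h hx]
      simp [kT, hT, hl, fd, int_ph]
  · simpa only [kT, hT, kern, Sum.elim_inr, if_pos hl] using (cl (.inr l)).2.2
  · obtain ⟨κ, hκ, h⟩ := lln hR R0 (kk (.inr e.1)) (kk (.inr e.2)) (hM _) (hM _) (hC _ _) hθ
      (Nat.le_add_left 3 k)
    refine RS.mono ⟨(bQ e).sub (RB.const (bQ e).exp), κ, hκ, h.mono fun a h f hx =>
      (abs_of_nonneg (integral_nonneg fun _ => abs_nonneg _)).trans_le (h _ _ _ (hx.2 _).1 (hx.2 _).1 w
        fun u u' e => (cg_zd hk (by_contra fun e' => e (if_neg e'))).trans (Nat.le_add_right k 3))⟩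
      (fun a h hx => (Bm.sum _ fun c _ => (bm a h hx _ c).mul (bm a h hx _ c)).sub (Bm.const _))
      fun a h hx σ => ?_
    simp only [kT, hT, Sum.elim_inr, if_pos h1, if_pos h2]
    exact (congrArg (fun t => |t - _|) (eQ a h hx e σ)).ge
  · obtain ⟨b, hb⟩ := ker_kT (n := n) (μ a) j hx.1 T
    rw [De, (to_sum hb (μ a) (fun i => (c1 a h hx i).1) (meas_cg k c₀ _) (fun i => (c1 a h hx i).2)
      (gA T)).2]
    simp only [DA, gA, Subtype.val_inj]
    rfl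

theorem cmp (hR : ∀ z ∈ K, ‖z‖ ≤ R) (R2 : 2 ≤ R) (h1 : c₀ ∈ Ico (0 : ℤ) k ×ˢ Ico (0 : ℤ) k)
    (h2 : ∀ i, (r i).1 ≠ c₀.1 ∧ (r i).2 ≠ c₀.2) {T : Finset (Fin m)} {Z t : ℝ} (ht : 0 < t)
    (hU : ∀ᶠ a in 𝓝[>] (0 : ℝ), ∀ z : Fin n ⊕ Fin m → ℂ,
      (∀ i, (∀ l, i = .inr l → l ∈ T) → z i ∈ K) → (∀ i i', i ≠ i' → (∀ l, i = .inr l → l ∈ T) →
        (∀ l, i' = .inr l → l ∈ T) → a ^ θ ≤ ‖z i - z i'‖) →
          |kc (μ a) (kT (μ a) j a T) z - Z * kc (μ₀ a) (kT (μ₀ a) j a T) z| ≤ a ^ t) :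
    Sm (A0 K k θ r) fun a h => De (μ a) j a (fun v => cg k c₀ (fl (a ^ θ) v)) h T -
      Z * De (μ₀ a) j a (fun v => cg k c₀ (fl (a ^ θ) v)) h T := by
  refine Sm.of_le (C := ∏ _ : Fin n ⊕ Fin m, (bx ⌈R / 1⌉₊).card * 1 ^ 2) ht
    (hU.mono fun a hU h hx => ?_)
  have s0 := Real.rpow_pos_of_pos hx.1 θ
  have t1 := tb_hT hR R2 (fun i => (hx.2 i).1) T
  have cv := fun s hs i z hz => mem_bx (s := s) hs ((t1 i).2.2 z hz) (Nat.le_ceil _)
  have mi := fun i => (t1 i).mi one_pos (cv 1 one_pos i)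
  have it := fun (ν : Measure Config) [IsProbabilityMeasure ν] => (ker_kT ν j hx.1 T).elim fun b hb =>
    (to_sum hb ν mi (meas_cg k c₀ _) (fun i z hz => mem_image_of_mem _ (cv _ s0 i z hz)) (gA T)).1
  rw [De, De, ← integral_const_mul, ← integral_sub (it _) ((it _).const_mul _), ← Real.norm_eq_abs]
  refine (norm_integral_le_of_norm_le ((int_pr mi).abs.mul_const (a ^ t))
    (Eventually.of_forall fun z => ?_)).trans ?_
  · rw [mul_left_comm Z, mul_left_comm Z, ← mul_sub, ← mul_sub, Real.norm_eq_abs, abs_mul, abs_mul]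
    have t0 := Real.rpow_pos_of_pos hx.1 t
    by_cases e : ∏ i, hT T h i (z i) = 0
    · simp [e]
    refine mul_le_mul_of_nonneg_left ?_ (abs_nonneg _)
    by_cases e' : gA T (fun i => cg k c₀ (fl (a ^ θ) (z i))) = 0
    · simp [e', t0.le]
    have c : ∀ i, (∀ l, i = .inr l → l ∈ T) → h i (z i) ≠ 0 := fun i hi => by
      have := prod_ne_zero_iff.1 e i (mem_univ i)
      cases i
      exacts [this, by simpa only [hT, Sum.elim_inr, if_pos (hi _ rfl)] using this]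
    exact (mul_le_of_le_one_left (abs_nonneg _) abs_gA).trans (hU z
      (fun i hi => (hx.2 i).1.2.2 _ (c i hi)) fun i i' e a1 a2 => cg_far h1 s0 (gA_ne e' e a1 a2)
        ((hx.2 i).2 _ (c i a1) ▸ h2 i) ((hx.2 i').2 _ (c i' a2) ▸ h2 i'))
  · simp only [integral_mul_const, abs_prod]
    rw [integral_fintype_prod_volume_eq_prod fun i z => |hT T h i z|]
    exact mul_le_mul_of_nonneg_right (prod_le_prod (fun _ _ => integral_nonneg fun _ => abs_nonneg _)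
      fun i _ => int_abs_le (t1 i) one_pos (cv 1 one_pos i)) (Real.rpow_nonneg hx.1.le _)

end Vale.Agent.P144DR
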