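import Vale.Agent.P144DR.Rv
import Vale.Agent.P144DY.Cont

/-!
The law of large numbers for the pairs of energies in the same cell.
-/

namespace Vale.Agent.P144DR

open Filter Topology MeasureTheory Vale.Agent.P144 Vale.Agent.P144Z Vale.Agent.P144F
open Vale.Agent.P144DD Finset

/-- The part of `f` where `g` takes the value `c`. -/
noncomputable def pg (g : ℂ → Site) (f : ℂ → ℝ) (c : Site) (z : ℂ) : ℝ := if g z = c then f z else 0

variable {T U U' : ℂ → Config → ℝ} {b b' : ℝ} {f f' : ℂ → ℝ} {g : ℂ → Site} {Y : Config → ℝ}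
  {W : Site → Site → ℝ} {I : Finset Site} {K : Set ℂ}

theorem pg_ne {c : Site} {z : ℂ} (h : pg g f c z ≠ 0) : g z = c ∧ f z ≠ 0 := by
  unfold pg at h
  split_ifs at h with h'
  exacts [⟨h', h⟩, absurd rfl h]

theorem mi_mul (h : Mi f) (hg : Measurable g) {H : Site → ℝ} {B : ℝ} (hH : ∀ u, |H u| ≤ B) :
    Mi fun z => H (g z) * f z :=
  ⟨((measurable_of_countable H).comp hg).mul h.1, h.2.bdd_mul
    ((measurable_of_countable H).comp hg).aestronglyMeasurable (Eventually.of_forall fun _ => hH _)⟩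

theorem pg_eq (g : ℂ → Site) (f : ℂ → ℝ) (c : Site) :
    pg g f c = fun z => (if c = g z then 1 else 0) * f z := by
  funext z
  simp [pg, eq_comm]

theorem mi_pg (h : Mi f) (hg : Measurable g) (c : Site) : Mi (pg g f c) := by
  rw [pg_eq]
  exact mi_mul h hg (H := fun u => if c = u then 1 else 0) (B := 1) fun u => by split_ifs <;> simp

theorem sum_pg (hI : ∀ z, f z ≠ 0 → g z ∈ I) : f = fun z => ∑ c ∈ I, pg g f c z := by
  funext z
  simp only [pg, sum_ite_eq]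
  split_ifs with h
  exacts [rfl, by_contra fun h' => h (hI z h')]

theorem fd_pg (hT : Ker T b) (h : Mi f) (hg : Measurable g) (hI : ∀ z, f z ≠ 0 → g z ∈ I)
    (σ : Config) : ∑ c ∈ I, fd T (pg g f c) σ = fd T f σ := by
  rw [← hT.sum I fun c _ => mi_pg h hg c, ← sum_pg hI]

theorem int_abs_le (h : Tb K f) {s : ℝ} (hs : 0 < s) (hI : ∀ z, f z ≠ 0 → fl s z ∈ I) :
    ∫ z, |f z| ≤ I.card * s ^ 2 := by
  refine le_trans (integral_mono (h.mi hs hI).2.abs (integrable_finsetSum I fun c _ =>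
    (h.mi_pc hs c).1.2.abs) fun z => ?_) ?_
  · exact (congrArg abs (congrFun (sum_pc hI) z)).trans_le (abs_sum_le_sum_abs _ _)
  · rw [integral_finsetSum _ fun c _ => (h.mi_pc hs c).1.2.abs, ← nsmul_eq_mul]
    exact sum_le_card_nsmul _ _ _ fun c _ => (h.mi_pc hs c).2

theorem bm_ker (hT : Ker T b) (v : ℂ) : Bm (T v) :=
  ⟨hT.1.comp (measurable_id.prodMk measurable_const), b, hT.2 v⟩

theorem ker_mul (hT : Ker T b) (hY : Bm Y) : ∃ c, Ker (fun v σ => T v σ * Y σ) c := by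
  obtain ⟨m, B, h⟩ := hY
  exact ⟨b * B, hT.1.mul (m.comp measurable_fst), fun v σ => (abs_mul _ _).trans_le
    (mul_le_mul (hT.2 v σ) (h σ) (abs_nonneg _) ((abs_nonneg _).trans (hT.2 v σ)))⟩

/-- The pairs of points with the weight `W`. -/
noncomputable def QQ (U U' : ℂ → Config → ℝ) (f f' : ℂ → ℝ) (g : ℂ → Site) (W : Site → Site → ℝ) :
    Config → ℝ := fd (fun v σ => U v σ * fd U' (fun w => W (g v) (g w) * f' w) σ) f

theorem ker_QQ (hU : Ker U b) (hU' : Ker U' b') (h' : Mi f') (hg : Measurable g) {B : ℝ}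
    (hW : ∀ u u', |W u u'| ≤ B) :
    ∃ c, Ker (fun v σ => U v σ * fd U' (fun w => W (g v) (g w) * f' w) σ) c := by
  have m := fun u => mi_mul h' hg (hW u)
  have m1 : Measurable fun p : Config × Site => fd U' (fun w => W p.2 (g w) * f' w) p.1 :=
    measurable_from_prod_countable_left fun u => (hU'.bm (m u)).1
  refine ⟨b * (|b'| * (B * ∫ w, |f' w|)), hU.1.mul (m1.comp (measurable_fst.prodMk
    (hg.comp measurable_snd))), fun v σ => (abs_mul _ _).trans_le (mul_le_mul (hU.2 v σ)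
      ((hU'.abs (m _) σ).trans (mul_le_mul (le_abs_self _) ?_ (integral_nonneg fun _ => abs_nonneg _)
        (abs_nonneg _))) (abs_nonneg _) ((abs_nonneg _).trans (hU.2 v σ)))⟩
  rw [← integral_const_mul]
  exact integral_mono (m _).2.abs (h'.2.abs.const_mul B) fun w =>
    (abs_mul _ _).trans_le (mul_le_mul_of_nonneg_right (hW _ _) (abs_nonneg _))

theorem QQ_eq (hU : Ker U b) (hU' : Ker U' b') (h : Mi f) (h' : Mi f') (hg : Measurable g) {B : ℝ}
    (hW : ∀ u u', |W u u'| ≤ B) (hI : ∀ z, f z ≠ 0 → g z ∈ I) (σ : Config) : QQ U U' f f' g W σ =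
      ∑ u ∈ I, fd U (pg g f u) σ * fd U' (fun w => W u (g w) * f' w) σ := by
  obtain ⟨c, k⟩ := ker_QQ hU hU' h' hg hW
  rw [QQ, ← fd_pg k h hg hI]
  refine sum_congr rfl fun u _ => ?_
  rw [fd, fd, ← integral_mul_const]
  refine integral_congr_ae (Eventually.of_forall fun z => ?_)
  simp only [pg]
  split_ifs with e
  exacts [by rw [e, mul_assoc], by simp]

variable {μ : Measure Config} [IsProbabilityMeasure μ]

theorem int_fd (hT : Ker T b) (h : Mi f) : (Integrable fun v => f v * ∫ σ, T v σ ∂μ) ∧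
    ∫ σ, fd T f σ ∂μ = ∫ v, f v * ∫ σ, T v σ ∂μ := by
  have i : Integrable (Function.uncurry fun σ v => f v * T v σ) (μ.prod volume) :=
    (h.2.comp_snd μ).mul_bdd hT.1.aestronglyMeasurable (Eventually.of_forall fun p => hT.2 _ _)
  simp only [← integral_const_mul]
  exact ⟨i.integral_prod_right, integral_integral_swap i⟩

theorem fd_le (hT : Ker T b) (hY : Bm Y) (h : Mi f) {ε : ℝ}
    (hε : ∀ v, f v ≠ 0 → |∫ σ, T v σ * Y σ ∂μ| ≤ ε) :
    |∫ σ, fd T f σ * Y σ ∂μ| ≤ ε * ∫ v, |f v| := by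
  obtain ⟨c, k⟩ := ker_mul hT hY
  have := (int_fd (μ := μ) k h).2
  simp only [fd, ← mul_assoc, integral_mul_const] at this
  simp only [fd]
  rw [this, ← integral_const_mul, ← Real.norm_eq_abs]
  refine norm_integral_le_of_norm_le (h.2.abs.const_mul ε) (Eventually.of_forall fun v => ?_)
  rw [Real.norm_eq_abs, abs_mul, mul_comm]
  by_cases e : f v = 0
  · simp [e]
  · exact mul_le_mul_of_nonneg_right (hε v e) (abs_nonneg _)

theorem fd_le2 (hU : Ker U b) (hU' : Ker U' b') (hY : Bm Y) (h : Mi f) (h' : Mi f') {ε : ℝ}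
    (hε : ∀ v w, f v ≠ 0 → f' w ≠ 0 → |∫ σ, U v σ * U' w σ * Y σ ∂μ| ≤ ε) :
    |∫ σ, fd U f σ * fd U' f' σ * Y σ ∂μ| ≤ ε * (∫ v, |f' v|) * ∫ v, |f v| := by
  simp only [mul_assoc (fd U f _)]
  refine fd_le hU ((hU'.bm h').mul hY) h fun v hv => ?_
  simp only [mul_left_comm (U v _)]
  refine fd_le hU' ((bm_ker hU v).mul hY) h' fun w hw => ?_
  simpa only [mul_left_comm (U' w _), mul_assoc] using hε v w hv hw

theorem cov_eq {Z : Config → ℝ} (hY : Bm Y) (hZ : Bm Z) : ∫ σ, Y σ * (Z σ - ∫ τ, Z τ ∂μ) ∂μ =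
    ∫ σ, Y σ * Z σ ∂μ - (∫ σ, Y σ ∂μ) * ∫ σ, Z σ ∂μ := by
  simp only [mul_sub]
  rw [integral_sub ((hY.mul hZ).int μ) ((hY.int μ).mul_const _), integral_mul_const]

theorem cov_comm {Z : Config → ℝ} (hY : Bm Y) (hZ : Bm Z) : ∫ σ, Y σ * (Z σ - ∫ τ, Z τ ∂μ) ∂μ =
    ∫ σ, Z σ * (Y σ - ∫ τ, Y τ ∂μ) ∂μ := by
  simp only [cov_eq hY hZ, cov_eq hZ hY, mul_comm]

theorem var_le {Y : Site → Config → ℝ} (hY : ∀ u, Bm (Y u)) {N : ℕ} {β ε : ℝ} (hε : 0 ≤ ε)
    (h1 : ∀ u, ∫ σ, Y u σ * Y u σ ∂μ ≤ β)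
    (h2 : ∀ u w, N < zd u w → |∫ σ, Y u σ * (Y w σ - ∫ τ, Y w τ ∂μ) ∂μ| ≤ ε) :
    ∫ σ, (∑ u ∈ I, Y u σ - ∫ τ, ∑ u ∈ I, Y u τ ∂μ) ^ 2 ∂μ ≤
      I.card * (I.card * ε + (2 * N + 1) ^ 2 * β) := by
  set Z : Site → Config → ℝ := fun u σ => Y u σ - ∫ τ, Y u τ ∂μ with hZ
  have bZ : ∀ u, Bm (Z u) := fun u => (hY u).sub (Bm.const _)
  have e : ∀ u w, ∫ σ, Z u σ * Z w σ ∂μ = ∫ σ, Y u σ * Z w σ ∂μ := fun u w => by
    rw [cov_eq (bZ u) (hY w), cov_eq (hY u) (hY w), integral_sub ((hY u).int μ) (integrable_const _)]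
    simp only [hZ, sub_mul]
    rw [integral_sub (((hY u).mul (hY w)).int μ) (((hY w).int μ).const_mul _), integral_const_mul]
    simp
  have v : ∀ u, ∫ σ, Z u σ * Z u σ ∂μ ≤ β := fun u => by
    rw [e, cov_eq (hY u) (hY u)]
    linarith [h1 u, mul_self_nonneg (∫ σ, Y u σ ∂μ)]
  have β0 : 0 ≤ β := (integral_nonneg fun σ => mul_self_nonneg _).trans (h1 0)
  rw [integral_finsetSum _ fun u _ => (hY u).int μ]
  simp only [← sum_sub_distrib, sq (∑ u ∈ I, _), sum_mul_sum]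
  rw [integral_finsetSum _ fun u _ => (Bm.sum _ fun w _ => (bZ u).mul (bZ w)).int μ, ← nsmul_eq_mul]
  refine sum_le_card_nsmul _ _ _ fun u _ => ?_
  rw [integral_finsetSum _ fun w _ => ((bZ u).mul (bZ w)).int μ]
  refine (sum_le_sum (g := fun w => ε + if w ∈ (bx N).image (· + u) then β else 0)
    fun w _ => ?_).trans ?_
  · split_ifs with hw
    · have := integral_mono (((bZ u).mul (bZ w)).int μ) ((((bZ u).mul (bZ u)).int μ).add
        (((bZ w).mul (bZ w)).int μ) |>.div_const 2) fun σ => by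
          simp only [Pi.add_apply]
          nlinarith [sq_nonneg (Z u σ - Z w σ)]
      simp only [Pi.add_apply] at this
      rw [integral_div, integral_add (((bZ u).mul (bZ u)).int μ) (((bZ w).mul (bZ w)).int μ)] at this
      linarith [v u, v w]
    · rw [add_zero, e]
      refine (le_abs_self _).trans (h2 u w (not_le.1 fun h => hw (mem_image.2 ⟨w - u, ?_, by simp⟩)))
      simp only [bx, mem_product, mem_Icc, zd, Prod.fst_sub, Prod.snd_sub] at h ⊢
      omega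
  · rw [sum_add_distrib, sum_const, nsmul_eq_mul, sum_ite_mem, sum_const, nsmul_eq_mul]
    refine add_le_add_right (mul_le_mul_of_nonneg_right ?_ β0) _
    exact_mod_cast (card_le_card inter_subset_right).trans (card_image_le.trans_eq (card_bx N))

theorem tb_mul (h : Tb K f) (hg : Measurable g) {H : Site → ℝ} (hH : ∀ u, |H u| ≤ 1) :
    Tb K fun z => H (g z) * f z :=
  ⟨((measurable_of_countable H).comp hg).mul h.1, fun z => (abs_mul _ _).trans_le
    (mul_le_one₀ (hH _) (abs_nonneg _) (h.2.1 z)), fun z hz => h.2.2 z (right_ne_zero_of_mul hz)⟩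

theorem lev (hU : Ker U b) (hU' : Ker U' b') {s : ℝ} (hs : 0 < s) (h : Tb K f) (h' : Tb K f')
    (hI : ∀ z ∈ K, fl s z ∈ I) (hW : ∀ u u', |W u u'| ≤ 1) {L N : ℕ}
    (hL : ∀ u u', W u u' ≠ 0 → zd u u' ≤ L) {y ε : ℝ} (hε : 0 ≤ ε)
    (m : ∀ f c, Tb K f → ∫ σ, fd U (pc s f c) σ ^ (2 * 2) ∂μ ≤ y ^ (2 * 2))
    (m' : ∀ f c, Tb K f → ∫ σ, fd U' (pc s f c) σ ^ (2 * 2) ∂μ ≤ y ^ (2 * 2))
    (far : ∀ v ∈ K, ∀ w ∈ K, ∀ v' ∈ K, ∀ w' ∈ K, W (fl s v) (fl s w) ≠ 0 →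
      W (fl s v') (fl s w') ≠ 0 → N < zd (fl s v) (fl s v') →
        |∫ σ, U v σ * U' w σ * (U v' σ * U' w' σ - ∫ τ, U v' τ * U' w' τ ∂μ) ∂μ| ≤ ε) :
    ∫ σ, (QQ U U' f f' (fl s) W σ - ∫ τ, QQ U U' f f' (fl s) W τ ∂μ) ^ 2 ∂μ ≤ I.card *
      (I.card * (ε * ((2 * L + 1) ^ 2 * s ^ 4) ^ 2) + (2 * N + 1) ^ 2 * ((2 * L + 1) ^ 2 * y) ^ 4) := by
  have mi : ∀ {f}, Tb K f → Mi f := fun h => h.mi hs fun z hz => hI z (h.2.2 z hz)
  have t := fun u => tb_mul h' (meas_fl s) (hW u)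
  have cv : ∀ u z, W u (fl s z) * f' z ≠ 0 → fl s z ∈ (bx L).image (· + u) := fun u z hz => by
    have := hL _ _ (left_ne_zero_of_mul hz)
    refine mem_image.2 ⟨fl s z - u, ?_, by simp⟩
    simp only [bx, mem_product, mem_Icc, zd, Prod.fst_sub, Prod.snd_sub] at this ⊢
    omega
  have cd : ∀ u : Site, (((bx L).image (· + u)).card : ℝ) ≤ (2 * L + 1) ^ 2 := fun u => by
    exact_mod_cast card_image_le.trans_eq (card_bx L)
  have b1 := fun u => hU.bm (h.mi_pc hs u).1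
  have b2 := fun u => hU'.bm (mi (t u))
  have a1 : ∀ u, (∫ v, |W u (fl s v) * f' v|) * ∫ v, |pc s f u v| ≤ (2 * L + 1) ^ 2 * s ^ 4 :=
    fun u => (mul_le_mul ((int_abs_le (t u) hs (cv u)).trans (mul_le_mul_of_nonneg_right (cd u)
      (sq_nonneg s))) (h.mi_pc hs u).2 (integral_nonneg fun _ => abs_nonneg _)
        (by positivity)).trans_eq (by ring)
  simp only [QQ_eq hU hU' (mi h) (mi h') (meas_fl s) hW fun z hz => hI z (h.2.2 z hz)]
  refine var_le (fun u => (b1 u).mul (b2 u)) (by positivity) (fun u => ?_) fun u w hw => ?_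
  · have k := int_sum _ (fun c => hU'.bm ((t u).mi_pc hs c).1) μ two_ne_zero
      fun c (_ : c ∈ (bx L).image (· + u)) => m' _ c (t u)
    simp only [← hU'.cells (t u) hs (cv u)] at k
    have := integral_mono ((((b1 u).mul (b2 u)).mul ((b1 u).mul (b2 u))).int μ)
      ((((b1 u).pow (2 * 2)).int μ).add (((b2 u).pow (2 * 2)).int μ) |>.div_const 2) fun σ => by
        simp only [Pi.add_apply]
        nlinarith [sq_nonneg (fd U (pc s f u) σ ^ 2 - fd U' (fun w => W u (fl s w) * f' w) σ ^ 2)]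
    simp only [Pi.add_apply] at this
    rw [integral_div, integral_add (((b1 u).pow _).int μ) (((b2 u).pow _).int μ)] at this
    have y0 : 0 ≤ y ^ (2 * 2) := (even_two_mul 2).pow_nonneg y
    have k1 := mul_le_mul_of_nonneg_right (pow_le_pow_left₀ (by positivity) (cd u) (2 * 2)) y0
    have k2 : y ^ (2 * 2) ≤ ((2 * L + 1 : ℝ) ^ 2) ^ (2 * 2) * y ^ (2 * 2) :=
      le_mul_of_one_le_left y0 (one_le_pow₀ (one_le_pow₀ (by linarith [Nat.cast_nonneg (α := ℝ) L])))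
    exact this.trans ((div_le_iff₀ two_pos).2
      ((add_le_add ((m f u h).trans k2) (k.trans k1)).trans_eq (by ring)))
  · refine (fd_le2 hU hU' (((b1 w).mul (b2 w)).sub (Bm.const _)) (h.mi_pc hs u).1 (mi (t u))
      (ε := ε * ((2 * L + 1) ^ 2 * s ^ 4)) fun v v' h1 h2 => ?_).trans ?_
    · have b3 := (bm_ker hU v).mul (bm_ker hU' v')
      rw [cov_comm b3 ((b1 w).mul (b2 w))]
      refine (fd_le2 hU hU' (b3.sub (Bm.const _)) (h.mi_pc hs w).1 (mi (t w))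
        (ε := ε) fun z z' h3 h4 => ?_).trans ?_
      · rw [cov_comm ((bm_ker hU z).mul (bm_ker hU' z')) b3]
        exact far v (h.2.2 v (pc_ne h1).2) v' ((t u).2.2 v' h2) z (h.2.2 z (pc_ne h3).2) z'
          ((t w).2.2 z' h4) ((pc_ne h1).1 ▸ left_ne_zero_of_mul h2)
          ((pc_ne h3).1 ▸ left_ne_zero_of_mul h4) ((pc_ne h1).1 ▸ (pc_ne h3).1 ▸ hw)
      · rw [mul_assoc]
        exact mul_le_mul_of_nonneg_left (a1 w) hε
    · rw [mul_assoc]
      exact (mul_le_mul_of_nonneg_left (a1 u) (by positivity)).trans_eq (by ring)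

end Vale.Agent.P144DR
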