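import Vale.Agent.P144DR.Ex
import Vale.Agent.P144DD.Ker

/-!
Observables that are small, or bounded, up to powers of the mesh.
-/

namespace Vale.Agent.P144DR

open Filter Topology MeasureTheory Vale.Agent.P144 Vale.Agent.P144F Finset

variable {X : Type*} {μ : ℝ → Measure Config} {A : ℝ → X → Prop} {u v : ℝ → X → Config → ℝ}

/-- Bounded measurable observables. -/
def Mb (A : ℝ → X → Prop) (u : ℝ → X → Config → ℝ) : Prop := ∀ a x, A a x → Bm (u a x)

/-- All the moments are bounded. -/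
def RB (μ : ℝ → Measure Config) (A : ℝ → X → Prop) (u : ℝ → X → Config → ℝ) : Prop :=
  Mb A u ∧ ∀ q : ℕ, Bd A fun a x => ∫ σ, |u a x σ| ^ q ∂μ a

/-- All the moments are bounded and the first one is small. -/
def RS (μ : ℝ → Measure Config) (A : ℝ → X → Prop) (u : ℝ → X → Config → ℝ) : Prop :=
  RB μ A u ∧ Sm A fun a x => ∫ σ, |u a x σ| ∂μ a

theorem Sm.rp {t : ℝ} (ht : 0 < t) : Sm A fun a _ => a ^ t :=
  ⟨t, ht, eventually_mem_nhdsWithin.mono fun _ ha _ _ =>
    (abs_of_pos (Real.rpow_pos_of_pos ha t)).le⟩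

theorem Sm.split {w : ℝ → X → ℝ} (h : Sm A w) : ∃ t > (0 : ℝ), Sm A fun a x => (a ^ t)⁻¹ * w a x := by
  obtain ⟨κ, hκ, h⟩ := h
  refine ⟨κ / 2, by positivity, κ / 2, by positivity, ?_⟩
  filter_upwards [h, self_mem_nhdsWithin] with a h ha x hx
  have p := Real.rpow_pos_of_pos ha (κ / 2)
  rw [abs_mul, abs_of_pos (inv_pos.2 p), inv_mul_le_iff₀ p, ← Real.rpow_add ha, add_halves]
  exact h x hx

theorem Bd.pow {w : ℝ → X → ℝ} (h : Bd A w) (q : ℕ) : Bd A fun a x => w a x ^ q := by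
  simpa using Bd.prod (range q) (u := fun _ => w) fun _ _ => h

theorem Bd.abs {w : ℝ → X → ℝ} (h : Bd A w) : Bd A fun a x => |w a x| :=
  h.mono (Eventually.of_forall fun _ _ _ => (abs_abs _).le)

theorem bm_sqrt {W : Config → ℝ} (h : Bm W) : Bm fun σ => √(W σ) := by
  obtain ⟨m, B, h⟩ := h
  exact ⟨m.sqrt, √B, fun σ => (abs_of_nonneg (Real.sqrt_nonneg _)).trans_le
    (Real.sqrt_le_sqrt ((le_abs_self _).trans (h σ)))⟩

variable [∀ a, IsProbabilityMeasure (μ a)]

theorem int_le {a : ℝ} {U V W : Config → ℝ} {c c' : ℝ} (hU : Bm U) (hV : Bm V) (hW : Bm W)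
    (h : ∀ σ, |U σ| ≤ c * V σ + c' * W σ) :
    |∫ σ, U σ ∂μ a| ≤ |c * ∫ σ, V σ ∂μ a + c' * ∫ σ, W σ ∂μ a| := by
  rw [← integral_const_mul, ← integral_const_mul, ← integral_add ((hV.int _).const_mul c)
    ((hW.int _).const_mul c')]
  exact abs_integral_le_integral_abs.trans ((integral_mono (hU.abs.int _)
    (((hV.int _).const_mul c).add ((hW.int _).const_mul c')) h).trans (le_abs_self _))

theorem RB.of_le {w : ℝ → X → Config → ℝ} (h : RB μ A v) (h' : RB μ A w) (m : Mb A u)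
    (le : ∀ q : ℕ, ∃ (c : ℝ) (p : ℕ), ∀ a x, A a x → ∀ σ,
      |u a x σ| ^ q ≤ c * |v a x σ| ^ p + c * |w a x σ| ^ p) : RB μ A u := ⟨m, fun q => by
  obtain ⟨c, p, le⟩ := le q
  exact (((Bd.const c).mul (h.2 p)).add ((Bd.const c).mul (h'.2 p))).mono (Eventually.of_forall
    fun a x hx => int_le ((m a x hx).abs.pow q) ((h.1 a x hx).abs.pow p) ((h'.1 a x hx).abs.pow p)
      fun σ => (abs_of_nonneg (by positivity)).trans_le (le a x hx σ))⟩

theorem RB.mono (h : RB μ A v) (m : Mb A u) (le : ∀ a x, A a x → ∀ σ, |u a x σ| ≤ |v a x σ|) :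
    RB μ A u := h.of_le h m fun q => ⟨1, q, fun a x hx σ => by
  linarith [pow_le_pow_left₀ (abs_nonneg _) (le a x hx σ) q, pow_nonneg (abs_nonneg (v a x σ)) q]⟩

theorem RB.const {c : ℝ → X → ℝ} (h : Bd A c) : RB μ A fun a x _ => c a x :=
  ⟨fun _ _ _ => Bm.const _, fun q => by simpa using h.abs.pow q⟩

theorem RB.add (h : RB μ A u) (h' : RB μ A v) : RB μ A fun a x σ => u a x σ + v a x σ :=
  h.of_le h' (fun a x hx => (h.1 a x hx).add (h'.1 a x hx)) fun q => ⟨2 ^ (q - 1), q,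
    fun _ _ _ _ => (pow_le_pow_left₀ (abs_nonneg _) (abs_add_le _ _) q).trans
      ((add_pow_le (abs_nonneg _) (abs_nonneg _) q).trans_eq (mul_add _ _ _))⟩

theorem RB.mul (h : RB μ A u) (h' : RB μ A v) : RB μ A fun a x σ => u a x σ * v a x σ :=
  h.of_le h' (fun a x hx => (h.1 a x hx).mul (h'.1 a x hx)) fun q => ⟨1, q * 2, fun a x _ σ => by
    rw [abs_mul, mul_pow, pow_mul, pow_mul]
    nlinarith [sq_nonneg (|u a x σ| ^ q - |v a x σ| ^ q), sq_nonneg (|u a x σ| ^ q + |v a x σ| ^ q)]⟩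

theorem RB.sub (h : RB μ A u) (h' : RB μ A v) : RB μ A fun a x σ => u a x σ - v a x σ := by
  simpa [sub_eq_add_neg] using h.add ((RB.const (Bd.const (-1))).mul h')

theorem RB.prod {ι : Type*} (s : Finset ι) {u : ι → ℝ → X → Config → ℝ} (h : ∀ i ∈ s, RB μ A (u i)) :
    RB μ A fun a x σ => ∏ i ∈ s, u i a x σ := by
  classical
  induction s using Finset.induction_on with
  | empty => simpa using RB.const (Bd.const 1)
  | insert i s hi ih =>
    simp only [prod_insert hi]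
    exact (h i (mem_insert_self _ _)).mul (ih fun j hj => h j (mem_insert_of_mem hj))

theorem RB.exp (h : RB μ A u) : Bd A fun a x => ∫ σ, u a x σ ∂μ a :=
  (h.2 1).mono (Eventually.of_forall fun a x _ => by
    simpa using abs_integral_le_integral_abs.trans (le_abs_self _))

theorem RB.of_even (m : Mb A u) (h : ∀ q ≠ 0, Bd A fun a x => ∫ σ, u a x σ ^ (2 * q) ∂μ a) :
    RB μ A u := ⟨m, fun q => by
  rcases eq_or_ne q 0 with rfl | hq
  · simpa using Bd.const 1
  have := (((Bd.const 1).mul (RB.const (μ := μ) (Bd.const 1)).exp).add ((Bd.const 1).mul (h q hq)))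
  refine this.mono (Eventually.of_forall fun a x hx => int_le ((m a x hx).abs.pow q) (Bm.const 1)
    ((m a x hx).pow _) fun σ => ?_)
  rw [abs_pow, abs_abs, ← (even_two_mul q).pow_abs, mul_comm 2, pow_mul]
  nlinarith [sq_nonneg (|u a x σ| ^ q - 1)]⟩

theorem RS.exp (h : RS μ A u) : Sm A fun a x => ∫ σ, u a x σ ∂μ a :=
  h.2.mono (Eventually.of_forall fun _ _ _ => abs_integral_le_integral_abs.trans (le_abs_self _))

theorem RS.add (h : RS μ A u) (h' : RS μ A v) : RS μ A fun a x σ => u a x σ + v a x σ :=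
  ⟨h.1.add h'.1, (((Bd.const 1).mul_sm h.2).add ((Bd.const 1).mul_sm h'.2)).mono
    (Eventually.of_forall fun a x hx => int_le ((h.1.add h'.1).1 a x hx).abs (h.1.1 a x hx).abs
      (h'.1.1 a x hx).abs fun σ => by simpa using abs_add_le _ _)⟩

theorem RS.mono (h : RS μ A v) (m : Mb A u) (le : ∀ a x, A a x → ∀ σ, |u a x σ| ≤ |v a x σ|) :
    RS μ A u := ⟨h.1.mono m le, h.2.mono (Eventually.of_forall fun a x hx => by
  simpa using int_le (c := 1) (c' := 0) (m a x hx).abs (h.1.1 a x hx).abs (Bm.const 0)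
    fun σ => by simpa using le a x hx σ)⟩

theorem RS.mul (h : RS μ A u) (h' : RB μ A v) : RS μ A fun a x σ => u a x σ * v a x σ := by
  obtain ⟨t, ht, k⟩ := h.2.split
  have b := h.1.mul (h'.mul h')
  refine ⟨h.1.mul h', (k.add ((Sm.rp ht).mul (b.2 1))).mono (eventually_mem_nhdsWithin.mono
    fun a ha x hx => int_le ((h.1.mul h').1 a x hx).abs (h.1.1 a x hx).abs
      ((b.1 a x hx).abs.pow 1) fun σ => ?_)⟩
  have p := Real.rpow_pos_of_pos ha t
  rw [abs_abs, pow_one, abs_mul, abs_mul, abs_mul, mul_left_comm, mul_comm _ |u a x σ|, ← mul_add]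
  refine mul_le_mul_of_nonneg_left ?_ (abs_nonneg _)
  rw [inv_eq_one_div, div_add' _ _ _ p.ne', le_div_iff₀ p]
  nlinarith [sq_nonneg (|v a x σ| * a ^ t - 1)]

theorem RS.sqrt (h : RS μ A u) : RS μ A fun a x σ => √(u a x σ) := by
  obtain ⟨t, ht, k⟩ := h.2.split
  have m : Mb A fun a x σ => √(u a x σ) := fun a x hx => bm_sqrt (h.1.1 a x hx)
  have e : ∀ w : ℝ, √w ^ 2 ≤ |w| := fun w => by
    rw [← Real.sq_sqrt (abs_nonneg w)]
    exact pow_le_pow_left₀ (Real.sqrt_nonneg _) (Real.sqrt_le_sqrt (le_abs_self w)) 2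
  refine ⟨h.1.of_le (RB.const (Bd.const 1)) m fun q => ⟨1, q, fun a x _ σ => ?_⟩,
    (k.add ((Sm.rp ht).mul (RB.const (μ := μ) (Bd.const 1)).exp)).mono
      (eventually_mem_nhdsWithin.mono fun a ha x hx => int_le (m a x hx).abs (h.1.1 a x hx).abs
        (Bm.const 1) fun σ => ?_)⟩
  · have := pow_le_pow_left₀ (sq_nonneg _) (e (u a x σ)) q
    rw [← pow_mul, mul_comm, pow_mul] at this
    rw [abs_of_nonneg (Real.sqrt_nonneg _), abs_one, one_pow]
    nlinarith [sq_nonneg (√(u a x σ) ^ q - 1)]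
  · have p := Real.rpow_pos_of_pos ha t
    rw [abs_abs, abs_of_nonneg (Real.sqrt_nonneg _), inv_mul_eq_div, div_add' _ _ _ p.ne',
      le_div_iff₀ p]
    nlinarith [sq_nonneg (√(u a x σ) - a ^ t), e (u a x σ)]

theorem RS.of_sq (h : RB μ A u) (h' : Sm A fun a x => ∫ σ, u a x σ ^ 2 ∂μ a) : RS μ A u :=
  (RS.sqrt ⟨h.mul h, by simpa only [← sq, abs_sq] using h'⟩).mono h.1 fun a x _ σ => by
    rw [Real.sqrt_mul_self_eq_abs, abs_abs]

theorem RS.prod_sub {ι : Type*} (s : Finset ι) {u v : ι → ℝ → X → Config → ℝ}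
    (h : ∀ i ∈ s, RS μ A fun a x σ => u i a x σ - v i a x σ) (b : ∀ i ∈ s, RB μ A (u i))
    (b' : ∀ i ∈ s, RB μ A (v i)) :
    RS μ A fun a x σ => ∏ i ∈ s, u i a x σ - ∏ i ∈ s, v i a x σ := by
  classical
  induction s using Finset.induction_on with
  | empty => exact ⟨by simpa using RB.const (Bd.const 0), by simpa using Sm.zero⟩
  | insert i s hi ih =>
    have m := fun j hj => mem_insert_of_mem (s := s) (a := j) (b := i) hj
    have := ((h i (mem_insert_self _ _)).mul (RB.prod s fun j hj => b j (m j hj))).add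
      ((ih (fun j hj => h j (m j hj)) (fun j hj => b j (m j hj)) fun j hj => b' j (m j hj)).mul
        (b' i (mem_insert_self _ _)))
    convert this using 4 with a x σ
    rw [prod_insert hi, prod_insert hi]
    ring

end Vale.Agent.P144DR
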